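import Mathlib.Algebra.BigOperators.Finsupp.Basic
import Mathlib.LinearAlgebra.Finsupp.LSum
import Mathlib.LinearAlgebra.Finsupp.Supported
import Vale.Agent.P213.Basic.Free

/-!
# Truncations of augmented directed complexes

`K.trunc k` keeps the basis elements of degree at most `k`.  Its cells are the cells of `ν K` of
dimension at most `k`, so functors defined on a skeleton are total functors, and Steiner's extension
goal becomes an extension of functors `ν (K.trunc k) ⟶ X` to `ν (K.trunc (k + 1))`.
-/

open CategoryTheory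

namespace Vale.Agent.P213.ADC

noncomputable section

variable (K : ADC) (k : ℕ)

/-- Chains of the truncation as chains of `K`. -/
def truncIn (l : ℕ) : ({_b : K.B l // l ≤ k} →₀ ℤ) →ₗ[ℤ] (K.B l →₀ ℤ) :=
  Finsupp.lmapDomain ℤ ℤ Subtype.val

/-- The projection to the truncation. -/
def truncOut (l : ℕ) : (K.B l →₀ ℤ) →ₗ[ℤ] ({_b : K.B l // l ≤ k} →₀ ℤ) :=
  Finsupp.lcomapDomain Subtype.val Subtype.val_injective

variable {K k}

lemma truncIn_out {l : ℕ} (hl : l ≤ k) (x : K.B l →₀ ℤ) :
    K.truncIn k l (K.truncOut k l x) = x := by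
  ext b
  exact (Finsupp.mapDomain_apply Subtype.val_injective (K.truncOut k l x) ⟨b, hl⟩).trans rfl

lemma truncOut_in {l : ℕ} (x : {_b : K.B l // l ≤ k} →₀ ℤ) :
    K.truncOut k l (K.truncIn k l x) = x := by
  ext b
  exact Finsupp.mapDomain_apply Subtype.val_injective x b

lemma truncIn_injective (l : ℕ) : Function.Injective (K.truncIn k l) :=
  Finsupp.mapDomain_injective Subtype.val_injective

lemma truncChain_eq_zero {l : ℕ} (hl : ¬ l ≤ k) (x : {_b : K.B l // l ≤ k} →₀ ℤ) : x = 0 := by
  ext b
  exact absurd b.2 hl

lemma truncIn_apply {l : ℕ} (hl : l ≤ k) (x : {_b : K.B l // l ≤ k} →₀ ℤ) (b : K.B l) :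
    K.truncIn k l x b = x ⟨b, hl⟩ :=
  Finsupp.mapDomain_apply Subtype.val_injective x ⟨b, hl⟩

lemma truncIn_nonneg {l : ℕ} {x : {_b : K.B l // l ≤ k} →₀ ℤ} (hx : 0 ≤ x) :
    0 ≤ K.truncIn k l x := by
  intro b
  by_cases hl : l ≤ k
  · rw [truncIn_apply hl]
    exact hx _
  · rw [truncChain_eq_zero hl x, map_zero]

variable (K k)

/-- The basis elements of degree at most `k`. -/
def trunc : ADC where
  B l := {_b : K.B l // l ≤ k}
  d l := (K.truncOut k l).comp ((K.d l).comp (K.truncIn k (l + 1)))
  ε := K.ε.comp (K.truncIn k 0)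
  d_d l x := by
    by_cases hl : l + 1 + 1 ≤ k
    · simp [truncIn_out (show l + 1 ≤ k by omega), K.d_d]
    · simp [truncChain_eq_zero hl x]
  ε_d x := by simp [truncIn_out (Nat.zero_le k), K.ε_d]

@[simp] lemma trunc_d (l : ℕ) (x) :
    (K.trunc k).d l x = K.truncOut k l (K.d l (K.truncIn k (l + 1) x)) := rfl

lemma truncIn_d (l : ℕ) (x : (K.trunc k).B (l + 1) →₀ ℤ) :
    K.truncIn k l ((K.trunc k).d l x) = K.d l (K.truncIn k (l + 1) x) := by
  by_cases hl : l + 1 ≤ k
  · exact truncIn_out (show l ≤ k by omega) _
  · have hx : K.truncIn k (l + 1) x = 0 :=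
      (congrArg _ (truncChain_eq_zero hl x)).trans (map_zero _)
    show K.truncIn k l (K.truncOut k l (K.d l (K.truncIn k (l + 1) x))) = _
    rw [hx]
    simp

/-- The inclusion of the truncation. -/
def truncIncl : K.trunc k ⟶ K where
  f := K.truncIn k
  pos _ _ := truncIn_nonneg
  comm := K.truncIn_d k
  aug _ := rfl

variable {K k}

lemma truncIn_gen {l : ℕ} (b : (K.trunc k).B l) :
    K.truncIn k l ((K.trunc k).gen b) = K.gen (Subtype.val b) :=
  Finsupp.mapDomain_single

/-- A cell of dimension at most `k` as a cell of the truncation. -/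
def Table.toTrunc (c : Table K) (hc : ∀ l s, k < l → c.x l s = 0) : Table (K.trunc k) where
  x l s := K.truncOut k l (c.x l s)
  nonneg l s b := c.nonneg l s b.1
  aug s := by
    show K.ε (K.truncIn k 0 (K.truncOut k 0 (c.x 0 s))) = 1
    rw [truncIn_out (Nat.zero_le k), c.aug]
  bdry l s := by
    show K.truncOut k l (K.d l (K.truncIn k (l + 1) (K.truncOut k (l + 1) (c.x (l + 1) s)))) =
      K.truncOut k l (c.x l true) - K.truncOut k l (c.x l false)
    rw [← map_sub, ← c.bdry l s]
    by_cases hl : l + 1 ≤ k
    · rw [truncIn_out hl]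
    · simp [hc (l + 1) s (by omega)]
  exists_zero := by
    obtain ⟨N, hN⟩ := c.exists_zero
    exact ⟨N, fun l s h => (congrArg (K.truncOut k l) (hN l s h)).trans (map_zero _)⟩

lemma Table.ofTrunc_above (a : Table (K.trunc k)) (l : ℕ) (s : Bool) (hl : k < l) :
    (Table.map (K.truncIncl k) a).x l s = 0 := by
  show K.truncIn k l (a.x l s) = 0
  rw [truncChain_eq_zero (by omega) (a.x l s), map_zero]

lemma Table.map_toTrunc (c : Table K) (hc : ∀ l s, k < l → c.x l s = 0) :
    Table.map (K.truncIncl k) (c.toTrunc hc) = c := by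
  refine Table.ext (funext fun l => funext fun s => ?_)
  show K.truncIn k l (K.truncOut k l (c.x l s)) = c.x l s
  by_cases hl : l ≤ k
  · exact truncIn_out hl _
  · rw [hc l s (by omega), map_zero, map_zero]

lemma Table.map_truncIncl_injective :
    Function.Injective (Table.map (K.truncIncl k)) := by
  intro a b h
  refine Table.ext (funext fun l => funext fun s => ?_)
  exact truncIn_injective l (congrArg (fun t : Table K => t.x l s) h)

lemma Table.toTrunc_map (a : Table (K.trunc k)) :
    (Table.map (K.truncIncl k) a).toTrunc a.ofTrunc_above = a :=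
  map_truncIncl_injective (map_toTrunc _ _)

/-- Atoms of the truncation are the atoms of dimension at most `k`. -/
lemma isAtom_trunc_iff {l : ℕ} (b : (K.trunc k).B l) (a : Table (K.trunc k)) :
    (K.trunc k).IsAtom b a ↔ K.IsAtom (Subtype.val b) (Table.map (K.truncIncl k) a) := by
  constructor
  · intro h
    refine ⟨fun s => (congrArg _ (h.top s)).trans (truncIn_gen b),
      fun i s hi => (congrArg _ (h.above i s hi)).trans (map_zero _), fun i hi => ?_⟩
    have hik : i ≤ k := le_trans hi.le b.2
    ext x
    have h2 := DFunLike.congr_fun (h.min i hi) (⟨x, hik⟩ : {_b : K.B i // i ≤ k})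
    show min (K.truncIn k i (a.x i true) x) (K.truncIn k i (a.x i false) x) = 0
    exact (congrArg₂ min (truncIn_apply hik _ x) (truncIn_apply hik _ x)).trans h2
  · intro h
    refine ⟨fun s => truncIn_injective l ((h.top s).trans (truncIn_gen b).symm),
      fun i s hi => truncIn_injective i ((h.above i s hi).trans (map_zero _).symm), fun i hi => ?_⟩
    have hik : i ≤ k := le_trans hi.le b.2
    ext x
    have h2 := DFunLike.congr_fun (h.min i hi) x.1
    change min (K.truncIn k i (a.x i true) x.1) (K.truncIn k i (a.x i false) x.1) = 0 at h2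
    exact (congrArg₂ min (truncIn_apply hik _ x.1) (truncIn_apply hik _ x.1)).symm.trans h2

theorem IsSteiner.trunc (hK : K.IsSteiner) : (K.trunc k).IsSteiner := by
  refine ⟨?_, ?_, fun l b => ?_⟩
  · have := hK.finite
    refine Finite.of_injective
      (fun x : Σ l, (K.trunc k).B l => (⟨x.1, Subtype.val x.2⟩ : Σ l, K.B l)) ?_
    rintro ⟨l, b⟩ ⟨l', b'⟩ h
    simp only [Sigma.mk.injEq] at h
    obtain ⟨rfl, h⟩ := h
    exact Sigma.ext rfl (heq_of_eq (Subtype.ext (eq_of_heq h)))
  · obtain ⟨r, hr⟩ := hK.loopFree
    refine ⟨fun x => r ⟨x.1, Subtype.val x.2⟩, fun l a b => ?_⟩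
    have e : (K.trunc k).d l ((K.trunc k).gen a) b =
        K.d l (K.gen (Subtype.val a)) (Subtype.val b) := by
      rw [trunc_d, truncIn_gen]
      rfl
    refine ⟨fun h => (hr l a.1 b.1).1 ?_, fun h => (hr l a.1 b.1).2 ?_⟩ <;>
    · simp only [InBdry] at h ⊢
      rw [e] at h
      exact h
  · obtain ⟨c, hc⟩ := hK.unital l b.1
    have hck : ∀ i s, k < i → c.x i s = 0 := fun i s hi =>
      hc.above i s (lt_of_le_of_lt b.2 hi)
    exact ⟨c.toTrunc hck, (isAtom_trunc_iff b _).2 (by rwa [Table.map_toTrunc])⟩

/-- The inclusion of skeleta on cells. -/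
def Table.raise (a : Table (K.trunc k)) : Table (K.trunc (k + 1)) :=
  (Table.map (K.truncIncl k) a).toTrunc fun l s hl => a.ofTrunc_above l s (by omega)

@[simp] lemma Table.map_raise (a : Table (K.trunc k)) :
    Table.map (K.truncIncl (k + 1)) a.raise = Table.map (K.truncIncl k) a :=
  map_toTrunc _ _

variable (K k) in
/-- The inclusion of consecutive skeleta. -/
def raiseHom : nu (K.trunc k) ⟶ nu (K.trunc (k + 1)) where
  map := Table.raise
  map_src i (a : Table (K.trunc k)) := Table.map_truncIncl_injective (by
    show Table.map _ (a.face i false).raise = Table.map _ (a.raise.face i false)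
    rw [Table.map_raise, Table.map_face, Table.map_face, Table.map_raise])
  map_tgt i (a : Table (K.trunc k)) := Table.map_truncIncl_injective (by
    show Table.map _ (a.face i true).raise = Table.map _ (a.raise.face i true)
    rw [Table.map_raise, Table.map_face, Table.map_face, Table.map_raise])
  map_comp i (a b : Table (K.trunc k)) (h : a.face i false = b.face i true)
      (h' : a.raise.face i false = b.raise.face i true) := Table.map_truncIncl_injective (by
    have h₁ : (Table.map (K.truncIncl k) a).face i false =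
        (Table.map (K.truncIncl k) b).face i true := by
      rw [← Table.map_face, ← Table.map_face]; exact congrArg _ h
    show Table.map _ (Table.comp i a b h).raise = Table.map _ (Table.comp i a.raise b.raise h')
    rw [Table.map_raise, Table.map_comp _ i a b h h₁, Table.map_comp _ i a.raise b.raise h'
      (by rw [Table.map_raise, Table.map_raise]; exact h₁)]
    simp only [Table.map_raise])

/-- Two functors out of a truncation are equal if they agree on atoms (from the uniqueness goal). -/
theorem hom_ext_trunc (hU : FreeUniqueGoal) (hK : K.IsSteiner) {X : OCat}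
    {F G : nu (K.trunc k) ⟶ X}
    (h : ∀ (l : ℕ) (b : K.B l) (_hb : l ≤ k) (c : Table (K.trunc k)),
      K.IsAtom b (Table.map (K.truncIncl k) c) → F.map c = G.map c) : F = G :=
  hU _ hK.trunc X F G fun l b c hc => h l b.1 b.2 c ((isAtom_trunc_iff b c).1 hc)

/-- The extension goal for truncations: values on the basis in degree `k + 1` with the right
boundaries extend a functor on the `k`-skeleton to the `(k + 1)`-skeleton. -/
theorem exists_extend (hE : FreeExtendGoal) (hK : K.IsSteiner) {X : OCat}
    (F : nu (K.trunc k) ⟶ X) (φ : K.B (k + 1) → X.Cell)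
    (hφ : ∀ b, X.src (k + 1) (φ b) = φ b)
    (hbd : ∀ b c (hs : ∀ l s, k < l → (c.face k false).x l s = 0)
      (ht : ∀ l s, k < l → (c.face k true).x l s = 0), K.IsAtom b c →
      X.src k (φ b) = F.map ((c.face k false).toTrunc hs) ∧
        X.tgt k (φ b) = F.map ((c.face k true).toTrunc ht)) :
    ∃ G : nu (K.trunc (k + 1)) ⟶ X, K.raiseHom k ≫ G = F ∧
      ∀ b (c : Table K) (h : ∀ l s, k + 1 < l → c.x l s = 0),
        K.IsAtom b c → G.map (c.toTrunc h) = φ b := by
  have hfix : ∀ (j : ℕ) (c : K.CellLE j), (c.1.toTrunc c.2).face j false = c.1.toTrunc c.2 := by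
    intro j c
    refine Table.ext (funext fun l => funext fun s => ?_)
    rw [Table.face_x]
    split_ifs with h1 h2
    · rfl
    · subst h2
      have e1 : c.1.x (l + 1) s = 0 := c.2 _ _ (by omega)
      have e2 := c.1.bdry l s
      rw [e1, map_zero, eq_comm, sub_eq_zero] at e2
      cases s
      · rfl
      · exact congrArg (K.truncOut l l) e2.symm
    · exact (truncChain_eq_zero (by omega) _).symm
  have hconv : ∀ (j : ℕ) (i : ℕ) (e : Bool) (c : Table K) (h : ∀ l s, j < l → c.x l s = 0)
      (h' : ∀ l s, j < l → (c.face i e).x l s = 0),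
      (c.face i e).toTrunc h' = (c.toTrunc h).face i e := fun j i e c h h' =>
    Table.map_truncIncl_injective (by
      rw [Table.map_toTrunc, Table.map_face, Table.map_toTrunc])
  let P : K.PartialHom k X :=
    { map := fun c => F.map (c.1.toTrunc c.2)
      dim := fun c => (F.map_src k (c.1.toTrunc c.2)).symm.trans (congrArg F.map (hfix k c))
      map_src := fun i c hc =>
        (congrArg F.map (hconv k i false c.1 c.2 hc)).trans (F.map_src i (c.1.toTrunc c.2))
      map_tgt := fun i c hc =>
        (congrArg F.map (hconv k i true c.1 c.2 hc)).trans (F.map_tgt i (c.1.toTrunc c.2))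
      map_comp := fun i a b h hc h' => by
        have h₁ : (nu (K.trunc k)).src i (a.1.toTrunc a.2) =
            (nu (K.trunc k)).tgt i (b.1.toTrunc b.2) := Table.map_truncIncl_injective (by
          show Table.map _ ((a.1.toTrunc a.2).face i false) =
            Table.map _ ((b.1.toTrunc b.2).face i true)
          rw [Table.map_face, Table.map_face, Table.map_toTrunc, Table.map_toTrunc, h])
        refine Eq.trans ?_ (F.map_comp i _ _ h₁ h')
        refine congrArg F.map (Table.map_truncIncl_injective ?_)
        show Table.map _ ((Table.comp i a.1 b.1 h).toTrunc hc) =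
          Table.map _ (Table.comp i (a.1.toTrunc a.2) (b.1.toTrunc b.2) h₁)
        rw [Table.map_toTrunc, Table.map_comp _ i _ _ h₁
          (by rw [Table.map_toTrunc, Table.map_toTrunc]; exact h)]
        simp only [Table.map_toTrunc] }
  obtain ⟨G, hG, hGφ⟩ := hE K hK X k P φ hφ fun b c hs ht hc => hbd b c hs ht hc
  let H : nu (K.trunc (k + 1)) ⟶ X :=
    { map := fun a => G.map ⟨Table.map (K.truncIncl (k + 1)) a, a.ofTrunc_above⟩
      map_src := fun i (a : Table (K.trunc (k + 1))) =>
        (congrArg G.map (Subtype.ext (Table.map_face _ a i false))).trans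
          (G.map_src i ⟨_, a.ofTrunc_above⟩ fun l s hl =>
            (congrArg (fun t : Table K => t.x l s) (Table.map_face _ a i false)).symm.trans
              (Table.ofTrunc_above _ l s hl))
      map_tgt := fun i (a : Table (K.trunc (k + 1))) =>
        (congrArg G.map (Subtype.ext (Table.map_face _ a i true))).trans
          (G.map_tgt i ⟨_, a.ofTrunc_above⟩ fun l s hl =>
            (congrArg (fun t : Table K => t.x l s) (Table.map_face _ a i true)).symm.trans
              (Table.ofTrunc_above _ l s hl))
      map_comp := fun i (a b : Table (K.trunc (k + 1))) (h : a.face i false = b.face i true) h' => by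
        have h₁ : (Table.map (K.truncIncl (k + 1)) a).face i false =
            (Table.map (K.truncIncl (k + 1)) b).face i true :=
          (Table.map_face _ a i false).symm.trans ((congrArg _ h).trans (Table.map_face _ b i true))
        refine (congrArg G.map (Subtype.ext (Table.map_comp _ i a b h h₁))).trans
          (G.map_comp i ⟨_, a.ofTrunc_above⟩ ⟨_, b.ofTrunc_above⟩ h₁ (fun l s hl =>
            (congrArg (fun t : Table K => t.x l s) (Table.map_comp _ i a b h h₁)).symm.trans
              (Table.ofTrunc_above _ l s hl)) h') }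
  refine ⟨H, OCat.hom_ext fun a => ?_, fun b c h hc => ?_⟩
  · show G.map ⟨Table.map (K.truncIncl (k + 1)) a.raise, _⟩ = F.map a
    have e : (⟨Table.map (K.truncIncl (k + 1)) a.raise, Table.ofTrunc_above _⟩ : K.CellLE (k + 1)) =
        ⟨Table.map (K.truncIncl k) a, fun l s hl => a.ofTrunc_above l s (by omega)⟩ :=
      Subtype.ext (Table.map_raise a)
    rw [e, hG _ _ a.ofTrunc_above]
    exact congrArg F.map a.toTrunc_map
  · show G.map ⟨Table.map (K.truncIncl (k + 1)) (c.toTrunc h), _⟩ = φ b
    rw [← hGφ b c h hc]
    exact congrArg G.map (Subtype.ext (Table.map_toTrunc c h))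

lemma aug_gen (hK : K.IsSteiner) (b : K.B 0) : K.ε (K.gen b) = 1 := by
  obtain ⟨c, hc⟩ := hK.unital 0 b
  rw [← hc.top false]
  exact c.aug false

/-- Functions on vertices are functors on the `0`-skeleton. -/
theorem exists_hom_trunc_zero (hK : K.IsSteiner) {X : OCat} (φ : K.B 0 → X.Cell)
    (hφ : ∀ b, X.src 0 (φ b) = φ b) :
    ∃ F : nu (K.trunc 0) ⟶ X, ∀ b (c : Table K) (h : ∀ l s, 0 < l → c.x l s = 0),
      K.IsAtom b c → F.map (c.toTrunc h) = φ b := by
  have hpt : ∀ a : Table (K.trunc 0),
      ∃ b, ∀ s, (Table.map (K.truncIncl 0) a).x 0 s = K.gen b := by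
    intro a
    set c := Table.map (K.truncIncl 0) a with hc
    have heq : c.x 0 true = c.x 0 false := by
      rw [← sub_eq_zero, ← c.bdry 0 false, a.ofTrunc_above 1 false Nat.one_pos, map_zero]
    have haug : (c.x 0 false).sum (fun _ n => n) = 1 := by
      rw [← c.aug false]
      conv_rhs => rw [← (c.x 0 false).sum_single, map_finsuppSum]
      refine Finsupp.sum_congr fun b _ => ?_
      rw [show Finsupp.single b ((c.x 0 false) b) = (c.x 0 false) b • K.gen b by
        rw [gen, Finsupp.smul_single, smul_eq_mul, mul_one], map_smul, aug_gen hK, smul_eq_mul,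
        mul_one]
    have hne : c.x 0 false ≠ 0 := fun h0 => by
      rw [h0, Finsupp.sum_zero_index] at haug
      exact zero_ne_one haug
    obtain ⟨b, hb⟩ := Finsupp.ne_iff.1 hne
    refine ⟨b, fun s => ?_⟩
    have hnn : ∀ y, 0 ≤ c.x 0 false y := fun y => c.nonneg 0 false y
    have h1 : 1 ≤ c.x 0 false b := by
      have := hnn b
      simp only [Finsupp.coe_zero, Pi.zero_apply] at hb
      omega
    have key : c.x 0 false = K.gen b := by
      ext y
      by_cases hy : y = b
      · subst hy
        rw [gen, Finsupp.single_eq_same]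
        have : c.x 0 false y ≤ 1 := haug ▸ Finset.single_le_sum (fun z _ => hnn z)
          (Finsupp.mem_support_iff.2 (by omega))
        omega
      · rw [gen, Finsupp.single_eq_of_ne hy]
        by_contra hy0
        classical
        have hsub : ({b, y} : Finset _) ⊆ (c.x 0 false).support := by
          intro z hz
          rcases Finset.mem_insert.1 hz with rfl | hz
          · exact Finsupp.mem_support_iff.2 (by omega)
          · rw [Finset.mem_singleton.1 hz]; exact Finsupp.mem_support_iff.2 hy0
        have hle := Finset.sum_le_sum_of_subset_of_nonneg (f := c.x 0 false) hsub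
          (fun z _ _ => hnn z)
        have := hle.trans (le_of_eq haug)
        rw [Finset.sum_pair (Ne.symm hy)] at this
        have := hnn y
        omega
    cases s
    · exact key
    · rw [heq, key]
  choose v hv using hpt
  have hinj : ∀ {x y : K.B 0}, K.gen x = K.gen y → x = y := fun h =>
    Finsupp.single_left_injective one_ne_zero h
  have hsame : ∀ (a a' : Table (K.trunc 0)) (e : Bool),
      (Table.map (K.truncIncl 0) a).x 0 e = (Table.map (K.truncIncl 0) a').x 0 e → v a = v a' :=
    fun a a' e h => hinj ((hv a e).symm.trans (h.trans (hv a' e)))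
  have hx0 : ∀ (a : Table (K.trunc 0)) (i : ℕ) (e : Bool), v (a.face i e) = v a := by
    intro a i e
    refine hsame _ _ e ?_
    rw [Table.map_face, Table.face_x]
    split_ifs <;> first | rfl | omega
  have hsrc : ∀ (i : ℕ) b, X.src i (φ b) = φ b := fun i b => by
    rw [← hφ b, X.src_src, Nat.min_zero, hφ]
  have htgt : ∀ (i : ℕ) b, X.tgt i (φ b) = φ b := fun i b => by
    rw [← hφ b]; exact X.tgt_src_ge i 0 _ (Nat.zero_le i)
  refine ⟨{ map := fun a => φ (v a)
            map_src := fun i a => (congrArg φ (hx0 a i false)).trans (hsrc i _).symm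
            map_tgt := fun i a => (congrArg φ (hx0 a i true)).trans (htgt i _).symm
            map_comp := ?_ }, ?_⟩
  · intro i (a : Table (K.trunc 0)) (b : Table (K.trunc 0)) (h : a.face i false = b.face i true) h'
    have hab : v a = v b := by rw [← hx0 a i false, ← hx0 b i true]; exact congrArg v h
    have hc : v (Table.comp i a b h) = v a := by
      refine hinj ((hv _ true).symm.trans (Eq.trans ?_ (hv a true)))
      show K.truncIn 0 0 ((Table.comp i a b h).x 0 true) = K.truncIn 0 0 (a.x 0 true)
      congr 1
      rw [Table.comp_x]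
      rcases Nat.eq_zero_or_pos i with rfl | hi <;> simp [*] <;> rfl
    show φ (v (Table.comp i a b h)) = _
    rw [hc]
    have e : φ (v b) = X.src i (φ (v a)) := by rw [hsrc, hab]
    have := X.comp_unit_right i (φ (v a)) (by rw [← e, htgt])
    exact this.symm.trans (by congr 1; exact e.symm)
  · intro b c h hc
    refine congrArg φ (hinj ((hv _ false).symm.trans ?_))
    rw [Table.map_toTrunc]
    exact hc.top false

/-- A finite complex is one of its truncations. -/
theorem exists_trunc_inverse (hK : K.IsSteiner) :
    ∃ N, ∀ l, N < l → IsEmpty (K.B l) := by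
  have := hK.finite
  have := Fintype.ofFinite (Σ l, K.B l)
  refine ⟨Finset.univ.sup fun x : Σ l, K.B l => x.1, fun l hl => ⟨fun b => ?_⟩⟩
  have := Finset.le_sup (f := fun x : Σ l, K.B l => x.1) (Finset.mem_univ (⟨l, b⟩ : Σ l, K.B l))
  simp only at this
  omega

variable (K k) in
/-- Projection to a truncation containing the whole basis. -/
def truncProj (h : ∀ l, k < l → IsEmpty (K.B l)) : K ⟶ K.trunc k where
  f := K.truncOut k
  pos l x hx b := hx b.1
  comm l x := by
    show K.truncOut k l (K.d l x) =
      K.truncOut k l (K.d l (K.truncIn k (l + 1) (K.truncOut k (l + 1) x)))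
    by_cases hl : l + 1 ≤ k
    · exact (congrArg (fun y => K.truncOut k l (K.d l y)) (truncIn_out hl x)).symm
    · have := h (l + 1) (by omega)
      exact congrArg (fun y => K.truncOut k l (K.d l y)) (Subsingleton.elim _ _)
  aug x := by
    show K.ε (K.truncIn k 0 (K.truncOut k 0 x)) = K.ε x
    rw [truncIn_out (Nat.zero_le k)]

lemma truncProj_comp_incl (h : ∀ l, k < l → IsEmpty (K.B l)) :
    K.truncProj k h ≫ K.truncIncl k = 𝟙 K := by
  refine Hom.ext (funext fun l => LinearMap.ext fun x => ?_)
  show K.truncIn k l (K.truncOut k l x) = x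
  by_cases hl : l ≤ k
  · exact truncIn_out hl x
  · have := h l (by omega)
    exact Subsingleton.elim _ _

end

end Vale.Agent.P213.ADC
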