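import Vale.Agent.P213.Cyl.PushExt

/-!
# A family of cells of `Γ X` along the cells of `ν K` comes from a functor on `ν (K ⊗ I)`

The family has to commute with faces and to be determined by its values on atoms, as is the case
for the family of a functor `ν K ⟶ Γ X`.
-/

open CategoryTheory

namespace Vale.Agent.P213.ADC

noncomputable section

variable {K : ADC}

namespace CylCell

variable {X : OCat}

/-- A face-compatible family of cells that is determined by its atoms is a family of pushes. -/
theorem exists_push_eq (hE : FreeExtendGoal) (hK : K.IsSteiner) (H : Table K → CylCell X)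
    (hface : ∀ (c : Table K) (i : ℕ) (e : Bool), H (c.face i e) = (H c).face i e)
    (hspread : ∀ (j : ℕ) (E : nu (cyl (K.trunc j)) ⟶ X),
      (∀ (l : ℕ) (b : K.B l) (c : Table K) (_hl : l ≤ j) (_hc : K.IsAtom b c) h,
        push (c.toTrunc h) E = H c) →
      ∀ (c : Table K) h, push (c.toTrunc h) E = H c) :
    ∃ Φ : nu (cyl K) ⟶ X, ∀ c, push c Φ = H c := by
  have hdim : ∀ (c : Table K) (l : ℕ), Le l c → (H c).DimAt l := fun c l hc => by
    have e := hface c l false
    rw [Table.face_eq_self hc] at e
    exact (congrArg CylCell.hom e).symm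
  have hF : FaceCompat fun l c (_ : Le l c) => (H c).toGlobe l := by
    intro l c hc i hi s
    show pre (globeFace l i s) ≫ (H c).toGlobe l = (H (c.face i s)).toGlobe i
    rw [hface, toGlobe_face _ hi]
  have hS : Spreads fun l c (_ : Le l c) => (H c).toGlobe l := by
    intro j E hA c hc
    have hcell : ∀ (l : ℕ) (d : Table K) (hl : l ≤ j) (hd : Le l d),
        push (d.toTrunc (hd.mono hl)) E =
          push (globeCell l) (pre (cellHom hl d hd) ≫ E) := fun l d hl hd => by
      rw [← push_map, map_cellHom]
    have h1 := hspread j E (fun l b d hl hd h => by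
      refine (hcell l d hl hd.above).trans ?_
      refine (congrArg (push (globeCell l)) (hA l b d hl hd)).trans ?_
      exact push_toGlobe (hdim d l hd.above)) c hc
    show pre (cellHom le_rfl c hc) ≫ E = (H c).toGlobe j
    rw [← h1]
    exact (toGlobe_push_cell _ _ E).symm
  obtain ⟨Φ, hΦ⟩ := exists_cylExt _ freeUnique hE hK hF hS
  refine ⟨Φ, fun c => ?_⟩
  obtain ⟨N, hN⟩ := c.exists_zero
  have hc : Le N c := fun l s hl => hN l s hl.le
  rw [← push_toGlobe (push_dimAt hc Φ), ← push_toGlobe (hdim c N hc)]
  exact congrArg (push (globeCell N)) ((toGlobe_push_cell c hc Φ).trans (hΦ N c hc))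

end CylCell

end

end Vale.Agent.P213.ADC
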