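import Vale.Agent.P213.Cyl.Gamma
import Vale.Agent.P213.Cyl.PushExtend
import Vale.Agent.P213.Cyl.Trunc

/-!
# Functors `ν K ⟶ Γ X` are functors `ν (K ⊗ I) ⟶ X`
-/

open CategoryTheory

namespace Vale.Agent.P213.ADC

noncomputable section

variable {X Y : OCat} {K L : ADC} (hE : FreeExtendGoal) (hK : K.IsSteiner)

lemma pushHom_map (Φ : nu (cyl K) ⟶ X) (a : Table K) :
    (pushHom hE hK Φ).map a = CylCell.push a Φ := rfl

/-- Every functor into the cylinder is a push. -/
theorem exists_pushHom_eq (F : nu K ⟶ gammaObj hE X) :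
    ∃ Φ : nu (cyl K) ⟶ X, pushHom hE hK Φ = F := by
  obtain ⟨Φ, hΦ⟩ := CylCell.exists_push_eq hE hK (fun c => F.map c)
    (fun c i e => by
      cases e
      · exact F.map_src i c
      · exact F.map_tgt i c)
    (fun j E hA c h => by
      have heq : pushHom hE hK.trunc E = K.skel j ≫ F :=
        hom_ext_trunc freeUnique hK fun l b hl d hd => by
          have e := hA l b _ hl hd d.ofTrunc_above
          rw [Table.toTrunc_map] at e
          exact e
      have e := congrArg (fun f : nu (K.trunc j) ⟶ gammaObj hE X => f.map (c.toTrunc h)) heq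
      exact e.trans (congrArg F.map (Table.map_toTrunc c h)))
  exact ⟨Φ, OCat.hom_ext hΦ⟩

/-- A functor out of `ν (K ⊗ I)` is determined by the functor it names. -/
theorem pushHom_injective : Function.Injective (pushHom (X := X) hE hK) := fun _ _ h =>
  CylCell.push_ext hK fun _ _ c _ => congrArg (fun f : nu K ⟶ gammaObj hE X => f.map c) h

/-- The adjunction bijection. -/
def adjEquiv : (nu K ⟶ gammaObj hE X) ≃ (nu (cyl K) ⟶ X) :=
  (Equiv.ofBijective (pushHom hE hK) ⟨pushHom_injective hE hK, exists_pushHom_eq hE hK⟩).symm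

@[simp] lemma adjEquiv_symm (Φ : nu (cyl K) ⟶ X) :
    (adjEquiv hE hK).symm Φ = pushHom hE hK Φ := rfl

lemma pushHom_adjEquiv (F : nu K ⟶ gammaObj hE X) : pushHom hE hK (adjEquiv hE hK F) = F :=
  (adjEquiv hE hK).symm_apply_apply F

lemma adjEquiv_eq_iff (F : nu K ⟶ gammaObj hE X) (Φ : nu (cyl K) ⟶ X) :
    adjEquiv hE hK F = Φ ↔ pushHom hE hK Φ = F :=
  (adjEquiv hE hK).apply_eq_iff_eq_symm_apply.trans eq_comm

/-- Naturality in the complex. -/
lemma pushHom_comp (hL : L.IsSteiner) (φ : K ⟶ L) (Φ : nu (cyl L) ⟶ X) :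
    nuFunctor.map φ ≫ pushHom hE hL Φ = pushHom hE hK (pre φ ≫ Φ) :=
  OCat.hom_ext fun a => CylCell.push_map φ a Φ

/-- Naturality in the category. -/
lemma pushHom_gammaMap (Φ : nu (cyl K) ⟶ X) (f : X ⟶ Y) :
    pushHom hE hK Φ ≫ gammaMap hE f = pushHom hE hK (Φ ≫ f) :=
  OCat.hom_ext fun a => CylCell.map_push f a Φ

lemma adjEquiv_comp (hL : L.IsSteiner) (φ : K ⟶ L) (F : nu L ⟶ gammaObj hE X) :
    adjEquiv hE hK (nuFunctor.map φ ≫ F) = pre φ ≫ adjEquiv hE hL F := by
  rw [adjEquiv_eq_iff, ← pushHom_comp hE hK hL, pushHom_adjEquiv]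
  rfl

lemma adjEquiv_gammaMap (F : nu K ⟶ gammaObj hE X) (f : X ⟶ Y) :
    adjEquiv hE hK (F ≫ gammaMap hE f) = adjEquiv hE hK F ≫ f := by
  rw [adjEquiv_eq_iff, ← pushHom_gammaMap, pushHom_adjEquiv]

end

end Vale.Agent.P213.ADC
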