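import Vale.Agent.P213.Cplx.Globe

/-!
# The infinite globe and the classifying morphism of a cell

`Ginf` is the infinite globe, two generators in each degree.  A cell `a` of `ν K` has a classifying
morphism `lift a : Ginf ⟶ K`; it factors through `q n : Ginf ⟶ globe n` as soon as `a` has
dimension at most `n`.
-/

open CategoryTheory

namespace Vale.Agent.P213.ADC

noncomputable section

/-- The infinite globe: two generators `(k, ±)` in each degree. -/
@[reducible] def Ginf : ADC where
  B _ := Bool
  d k := onGen fun _ => Finsupp.single true 1 - Finsupp.single false 1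
  ε := onGen fun _ : Bool => (1 : ℤ)
  d_d k x := by
    have e : (onGen fun _ : Bool => Finsupp.single true (1 : ℤ) - Finsupp.single false 1).comp
        (onGen fun _ : Bool => Finsupp.single true (1 : ℤ) - Finsupp.single false 1) = 0 :=
      lhom_ext_gen fun b => by simp
    exact LinearMap.congr_fun e x
  ε_d x := by
    have e : (onGen fun _ : Bool => (1 : ℤ)).comp
        (onGen fun _ : Bool => Finsupp.single true (1 : ℤ) - Finsupp.single false 1) = 0 :=
      lhom_ext_gen fun b => by simp
    exact LinearMap.congr_fun e x

variable {K L : ADC}

/-- The morphism classifying a cell. -/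
def lift (a : Table K) : Ginf ⟶ K :=
  Hom.ofGen (fun k s => a.x k s) (fun k s => a.nonneg k s)
    (fun k s => by simp [gen, a.bdry])
    (fun s => by simp [gen, a.aug])

lemma lift_single (a : Table K) (k : ℕ) (s : Bool) :
    (lift a).f k (Finsupp.single s 1) = a.x k s := by
  unfold lift Hom.ofGen
  exact onGen_single (fun s : Bool => a.x k s) s

lemma lift_comp (a : Table K) (φ : K ⟶ L) : lift a ≫ φ = lift (Table.map φ a) :=
  Hom.ext_gen fun k s => by
    show φ.f k ((lift a).f k (Finsupp.single s 1)) = (lift _).f k (Finsupp.single s 1)
    rw [lift_single, lift_single]; rfl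

/-- The face `(i, e)` of the infinite globe. -/
def gface (i : ℕ) (e : Bool) : Table Ginf where
  x k s := if k < i then Finsupp.single s 1 else if k = i then Finsupp.single e 1 else 0
  nonneg k s := by split_ifs <;> simp
  aug s := by
    split_ifs with h₁ h₂
    · exact onGen_single _ _
    · exact onGen_single _ _
    · omega
  bdry k s := by
    rcases lt_trichotomy (k + 1) i with h | h | h
    · simp [h, show k < i by omega]
    · subst h; simp
    · rw [if_neg (by omega), if_neg (by omega), map_zero]
      by_cases hk : k = i
      · subst hk; simp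
      · simp [hk, show ¬ k < i by omega]
  exists_zero := ⟨i + 1, fun k s h => by rw [if_neg (by omega), if_neg (by omega)]⟩

lemma gface_x (i : ℕ) (e : Bool) (k : ℕ) (s : Bool) :
    (gface i e).x k s = if k < i then Finsupp.single s 1 else
      if k = i then Finsupp.single e 1 else 0 := rfl

lemma gface_above (i : ℕ) (e : Bool) (k : ℕ) (s : Bool) (h : i < k) : (gface i e).x k s = 0 := by
  rw [gface_x, if_neg (by omega), if_neg (by omega)]

lemma map_gface (a : Table K) (i : ℕ) (e : Bool) :
    Table.map (lift a) (gface i e) = a.face i e := by
  refine Table.ext (funext fun k => funext fun s => ?_)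
  simp only [Table.map, gface_x, Table.face_x]
  split_ifs
  exacts [lift_single a k s, lift_single a k e, map_zero _]

lemma gface_face (i : ℕ) (e : Bool) (j : ℕ) (e' : Bool) :
    (gface j e').face i e = if i < j then gface i e else gface j e' := by
  refine Table.ext (funext fun k => funext fun s => ?_)
  simp only [Table.face_x, gface_x]
  split_ifs <;> simp only [gface_x] <;> split_ifs <;> first | rfl | omega

/-- The endomorphism of the infinite globe onto its face `(i, e)`. -/
def endo (i : ℕ) (e : Bool) : Ginf ⟶ Ginf := lift (gface i e)

lemma endo_lift (i : ℕ) (e : Bool) (a : Table K) : endo i e ≫ lift a = lift (a.face i e) := by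
  rw [endo, lift_comp, map_gface]

lemma endo_endo (i j : ℕ) (e e' : Bool) :
    endo i e ≫ endo j e' = if i < j then endo i e else endo j e' := by
  show endo i e ≫ lift _ = _
  rw [endo_lift, gface_face]
  split_ifs <;> rfl

/-- A cell of dimension at most `n` is its own `n`-face. -/
lemma Table.face_eq_self {a : Table K} {n : ℕ} (ha : ∀ l s, n < l → a.x l s = 0) (e : Bool) :
    a.face n e = a := by
  refine Table.ext (funext fun k => funext fun s => ?_)
  rw [Table.face_x]
  split_ifs with h₁ h₂
  · rfl
  · subst h₂
    have h := a.top_eq ha
    cases e <;> cases s <;> simp [h]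
  · rw [ha k s (by omega)]

/-- The collapse of the infinite globe onto the `n`-globe. -/
def q (n : ℕ) : Ginf ⟶ globe n := lift (globeCell n)

/-- The inclusion of the `n`-globe as the source face of the infinite globe. -/
def ι (n : ℕ) : globe n ⟶ Ginf := globeHom n (gface n false) (gface_above n false)

lemma q_globeHom (n : ℕ) (a : Table K) (ha : ∀ l s, n < l → a.x l s = 0) :
    q n ≫ globeHom n a ha = lift a := by
  rw [q, lift_comp, globeHom_cell]

lemma q_ι (n : ℕ) : q n ≫ ι n = endo n false := q_globeHom n _ _

lemma ι_q (n : ℕ) : ι n ≫ q n = 𝟙 (globe n) := by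
  refine globe_hom_ext ?_
  show Table.map (q n) (Table.map (ι n) (globeCell n)) = globeCell n
  rw [ι, globeHom_cell, q, map_gface, Table.face_eq_self (globeCell_above n)]

end

end Vale.Agent.P213.ADC
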