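import Vale.Agent.P213.Cplx.Cylinder
import Vale.Agent.P213.Cyl.Globe

/-!
# The cells of the cylinder `Γ X`

A cell of `Γ X` is a functor `ν (Ginf ⊗ I) ⟶ X` that factors through some `ν (globe N ⊗ I)`.
`push a Φ` is the cell that a cell `a` of `ν K` names in a functor `Φ : ν (K ⊗ I) ⟶ X`; every cell
is of this form with `K` a globe.
-/

open CategoryTheory

namespace Vale.Agent.P213.ADC

noncomputable section

variable {K L M : ADC}

/-- `ν (φ ⊗ I)`. -/
def pre (φ : K ⟶ L) : nu (cyl K) ⟶ nu (cyl L) := nuFunctor.map (cylMap φ)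

lemma pre_id (K : ADC) : pre (𝟙 K) = 𝟙 (nu (cyl K)) := by
  rw [pre, show cylMap (𝟙 K) = 𝟙 (cyl K) from cylFunctor.map_id K]
  exact nuFunctor.map_id (cyl K)

lemma pre_pre (φ : K ⟶ L) (ψ : L ⟶ M) {X : OCat} (Φ : nu (cyl M) ⟶ X) :
    pre φ ≫ pre ψ ≫ Φ = pre (φ ≫ ψ) ≫ Φ := by
  rw [pre, pre, pre, show cylMap (φ ≫ ψ) = cylMap φ ≫ cylMap ψ from cylFunctor.map_comp φ ψ]
  rfl

/-- A cell of the cylinder of `X`. -/
@[ext]
structure CylCell (X : OCat) where
  /-- The functor. -/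
  hom : nu (cyl Ginf) ⟶ X
  dim : ∃ N, pre (endo N false) ≫ hom = hom

namespace CylCell

variable {X Y : OCat}

/-- The cell has dimension at most `N`. -/
def DimAt (N : ℕ) (F : CylCell X) : Prop := pre (endo N false) ≫ F.hom = F.hom

lemma DimAt.mono {N N' : ℕ} {F : CylCell X} (h : F.DimAt N) (hN : N ≤ N') : F.DimAt N' := by
  show pre (endo N' false) ≫ F.hom = F.hom
  conv_lhs => rw [← h]
  rw [pre_pre, endo_endo, if_neg (by omega)]
  exact h

/-- The cell named by a cell `a` of `ν K` in a functor out of `ν (K ⊗ I)`. -/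
def push (a : Table K) (Φ : nu (cyl K) ⟶ X) : CylCell X where
  hom := pre (lift a) ≫ Φ
  dim := by
    obtain ⟨N, hN⟩ := a.eventually_eq
    exact ⟨N, by rw [pre_pre, endo_lift, hN]⟩

lemma push_dimAt {a : Table K} {N : ℕ} (ha : ∀ l s, N < l → a.x l s = 0)
    (Φ : nu (cyl K) ⟶ X) : (push a Φ).DimAt N := by
  show pre (endo N false) ≫ pre (lift a) ≫ Φ = pre (lift a) ≫ Φ
  rw [pre_pre, endo_lift, Table.face_eq_self ha]

/-- The `i`-dimensional source (`e = false`) or target. -/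
def face (F : CylCell X) (i : ℕ) (e : Bool) : CylCell X where
  hom := pre (endo i e) ≫ F.hom
  dim := ⟨i, by rw [pre_pre, endo_endo, if_neg (lt_irrefl i)]⟩

lemma push_face (a : Table K) (Φ : nu (cyl K) ⟶ X) (i : ℕ) (e : Bool) :
    (push a Φ).face i e = push (a.face i e) Φ :=
  CylCell.ext (show pre (endo i e) ≫ pre (lift a) ≫ Φ = pre (lift _) ≫ Φ by
    rw [pre_pre, endo_lift])

lemma push_map (φ : K ⟶ L) (a : Table K) (Φ : nu (cyl L) ⟶ X) :
    push (Table.map φ a) Φ = push a (pre φ ≫ Φ) :=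
  CylCell.ext (show pre (lift _) ≫ Φ = pre (lift a) ≫ pre φ ≫ Φ by rw [pre_pre, lift_comp])

/-- The functor on `globe N ⊗ I` of a cell. -/
def toGlobe (N : ℕ) (F : CylCell X) : nu (cyl (globe N)) ⟶ X := pre (ι N) ≫ F.hom

lemma push_toGlobe {N : ℕ} {F : CylCell X} (h : F.DimAt N) :
    push (globeCell N) (F.toGlobe N) = F :=
  CylCell.ext (show pre (q N) ≫ pre (ι N) ≫ F.hom = F.hom by rw [pre_pre, q_ι]; exact h)

lemma toGlobe_push (N : ℕ) (Φ : nu (cyl (globe N)) ⟶ X) :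
    (push (globeCell N) Φ).toGlobe N = Φ := by
  show pre (ι N) ≫ pre (q N) ≫ Φ = Φ
  rw [pre_pre, ι_q, pre_id, Category.id_comp]

lemma exists_push (F : CylCell X) :
    ∃ (N : ℕ) (Φ : nu (cyl (globe N)) ⟶ X), push (globeCell N) Φ = F :=
  let ⟨N, hN⟩ := F.dim
  ⟨N, F.toGlobe N, push_toGlobe hN⟩

/-- The image of a cell under a functor. -/
def map (f : X ⟶ Y) (F : CylCell X) : CylCell Y where
  hom := F.hom ≫ f
  dim := F.dim.imp fun N hN => by rw [← Category.assoc, hN]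

lemma map_push (f : X ⟶ Y) (a : Table K) (Φ : nu (cyl K) ⟶ X) :
    (push a Φ).map f = push a (Φ ≫ f) :=
  CylCell.ext (Category.assoc _ _ _)

end CylCell

end

end Vale.Agent.P213.ADC
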