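import Vale.Agent.P213.Cyl.Dim
import Vale.Agent.P213.Cplx.Globe

/-!
# Building a functor from charts

`C` has charts `φ a : D a ⟶ C` with functors `H a : ν (D a) ⟶ X`, and every atom of `C` is the image
of a chosen atom of a chosen chart.  If agreement on the chosen atoms up to dimension `k` forces
agreement on all atoms of all charts up to dimension `k`, the functors glue.
-/

open CategoryTheory

namespace Vale.Agent.P213.ADC

noncomputable section

variable {C : ADC} {X : OCat} {A : Type} {D : A → ADC}

/-- A functor on the `k`-skeleton of `C` agrees with the chart `(φ, H)` on atoms up to `k`. -/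
def AgreesUpTo (k : ℕ) (G : nu (C.trunc k) ⟶ X) {E : ADC} (φ : E ⟶ C) (H : nu E ⟶ X) : Prop :=
  ∀ (l : ℕ) (b : E.B l) (c : Table E), l ≤ k → E.IsAtom b c →
    ∀ h, G.map ((Table.map φ c).toTrunc h) = H.map c

/-- A functor on the `k`-skeleton of `C` has the chosen values on its atoms. -/
def HasValues (k : ℕ) (G : nu (C.trunc k) ⟶ X) (v : ∀ l, C.B l → X.Cell) : Prop :=
  ∀ (l : ℕ) (y : C.B l) (c : Table C), l ≤ k → C.IsAtom y c → ∀ h, G.map (c.toTrunc h) = v l y

/-- A morphism on skeleta. -/
def skelMap {K L : ADC} (φ : K ⟶ L) (k : ℕ) : nu (K.trunc k) ⟶ nu (L.trunc k) where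
  map (a : Table (K.trunc k)) :=
    (Table.map φ (Table.map (K.truncIncl k) a)).toTrunc (Table.map_above φ _ a.ofTrunc_above)
  map_src i (a : Table (K.trunc k)) := Table.map_truncIncl_injective (by
    refine (Table.map_toTrunc _ _).trans ?_
    refine Eq.trans ?_ (Table.map_face _ _ _ _).symm
    rw [Table.map_toTrunc, ← Table.map_face, ← Table.map_face]
    rfl)
  map_tgt i (a : Table (K.trunc k)) := Table.map_truncIncl_injective (by
    refine (Table.map_toTrunc _ _).trans ?_
    refine Eq.trans ?_ (Table.map_face _ _ _ _).symm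
    rw [Table.map_toTrunc, ← Table.map_face, ← Table.map_face]
    rfl)
  map_comp i (a b : Table (K.trunc k)) (h : a.face i false = b.face i true) h' := by
    have h₁ : (Table.map (K.truncIncl k) a).face i false =
        (Table.map (K.truncIncl k) b).face i true := by
      rw [← Table.map_face, ← Table.map_face, h]
    have h₂ : (Table.map φ (Table.map (K.truncIncl k) a)).face i false =
        (Table.map φ (Table.map (K.truncIncl k) b)).face i true :=
      (Table.map_face φ _ i false).symm.trans ((congrArg _ h₁).trans (Table.map_face φ _ i true))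
    refine Table.map_truncIncl_injective ((Table.map_toTrunc _ _).trans ?_)
    refine Eq.trans ?_ (Table.map_comp _ i _ _ h'
      (by rw [Table.map_toTrunc, Table.map_toTrunc]; exact h₂)).symm
    refine ((congrArg (Table.map φ) (Table.map_comp _ i a b h h₁)).trans
      (Table.map_comp φ i _ _ h₁ h₂)).trans ?_
    simp only [Table.map_toTrunc]

theorem AgreesUpTo.eq_on_skel (hU : FreeUniqueGoal) {k : ℕ} {G : nu (C.trunc k) ⟶ X} {E : ADC}
    (hE : E.IsSteiner) {φ : E ⟶ C} {H : nu E ⟶ X} (hag : AgreesUpTo k G φ H) (c : Table E)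
    (hc : ∀ l s, k < l → c.x l s = 0) :
    G.map ((Table.map φ c).toTrunc (Table.map_above φ c hc)) = H.map c := by
  have h₀ : skelMap φ k ≫ G = E.skel k ≫ H :=
    hom_ext_trunc hU hE fun l b hl a ha => hag l b _ hl ha (Table.map_above φ _ a.ofTrunc_above)
  have h₁ := congrArg (fun f : nu (E.trunc k) ⟶ X => f.map (c.toTrunc hc)) h₀
  refine Eq.trans ?_ (h₁.trans (congrArg H.map (Table.map_toTrunc c hc)))
  refine congrArg G.map (Table.map_truncIncl_injective ?_)
  refine (Table.map_toTrunc _ _).trans (Eq.symm ?_)
  show Table.map (C.truncIncl k) ((Table.map φ (Table.map (E.truncIncl k) (c.toTrunc hc))).toTrunc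
    (Table.map_above φ _ (Table.ofTrunc_above _))) = _
  rw [Table.map_toTrunc, Table.map_toTrunc]

/-- Gluing along charts. -/
theorem exists_of_charts (hU : FreeUniqueGoal) (hE : FreeExtendGoal) (hC : C.IsSteiner)
    (hD : ∀ a, (D a).IsSteiner) (φ : ∀ a, D a ⟶ C) (H : ∀ a, nu (D a) ⟶ X)
    (v : ∀ l, C.B l → X.Cell) (hv : ∀ l y, X.src l (v l y) = v l y)
    (cover : ∀ (l : ℕ) (y : C.B l), ∃ (a : A) (b : (D a).B l) (c : Table (D a)),
      (D a).IsAtom b c ∧ C.IsAtom y (Table.map (φ a) c) ∧ (H a).map c = v l y)
    (atom_eq : ∀ (l : ℕ) (y : C.B l) (c c' : Table C), C.IsAtom y c → C.IsAtom y c' → c = c')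
    (compat : ∀ (k : ℕ) (G : nu (C.trunc k) ⟶ X), HasValues k G v →
      ∀ a, AgreesUpTo k G (φ a) (H a)) :
    ∃ G : nu C ⟶ X, ∀ a, nuFunctor.map (φ a) ≫ G = H a := by
  have step : ∀ k, ∃ G : nu (C.trunc k) ⟶ X, HasValues k G v := by
    intro k
    induction k with
    | zero =>
      obtain ⟨G, hG⟩ := exists_hom_trunc_zero hC (v 0) (hv 0)
      exact ⟨G, fun l y c hl hc h => by obtain rfl := Nat.le_zero.1 hl; exact hG y c h hc⟩
    | succ k ih =>
      obtain ⟨G, hG⟩ := ih
      obtain ⟨G', hG', hGv⟩ := exists_extend hE hC G (v (k + 1)) (hv (k + 1))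
        fun y c hs ht hc => by
          obtain ⟨a, b, c', hb, hy, he⟩ := cover (k + 1) y
          obtain rfl := atom_eq _ y _ _ hc hy
          have key : ∀ e h, X.src k ((H a).map c') = (H a).map (c'.face k false) ∧
              X.tgt k ((H a).map c') = (H a).map (c'.face k true) ∧
              G.map (((Table.map (φ a) c').face k e).toTrunc h) = (H a).map (c'.face k e) := by
            intro e h
            refine ⟨((H a).map_src k c').symm, ((H a).map_tgt k c').symm, ?_⟩
            have := (compat k G hG a).eq_on_skel hU (hD a) (c'.face k e)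
              (Table.face_le c' k e)
            simp only [Table.map_face] at this
            exact this
          rw [← he, (key false hs).1, (key true ht).2.1, (key false hs).2.2, (key true ht).2.2]
          exact ⟨rfl, rfl⟩
      refine ⟨G', fun l y c hl hc h => ?_⟩
      rcases Nat.lt_or_eq_of_le hl with hl' | rfl
      · have hck : ∀ i s, k < i → c.x i s = 0 := fun i s hi => hc.above i s (by omega)
        rw [← hG l y c (by omega) hc hck, ← hG']
        refine congrArg G'.map (Table.map_truncIncl_injective ?_)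
        show Table.map _ (c.toTrunc h) = Table.map _ (c.toTrunc hck).raise
        rw [Table.map_raise, Table.map_toTrunc, Table.map_toTrunc]
      · exact hGv y c h hc
  obtain ⟨N, hN⟩ := exists_trunc_inverse hC
  obtain ⟨G, hG⟩ := step N
  refine ⟨nuFunctor.map (C.truncProj N hN) ≫ G, fun a => hU _ (hD a) X _ _ fun l b c hc => ?_⟩
  have hN' : ∀ l, N < l → ∀ x : C.B l →₀ ℤ, x = 0 := fun l hl x => by
    have := hN l hl
    exact Subsingleton.elim _ _
  show G.map (Table.map (C.truncProj N hN) (Table.map (φ a) c)) = (H a).map c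
  have e : Table.map (C.truncProj N hN) (Table.map (φ a) c) =
      (Table.map (φ a) c).toTrunc fun l s hl => hN' l hl _ := rfl
  rw [e]
  rcases Nat.lt_or_ge N l with hl | hl
  · have hcb : ∀ i s, l < i → (Table.map (φ a) c).x i s = 0 := fun i s hi => hN' i (by omega) _
    obtain ⟨G', hG', hG'H⟩ : ∃ G' : nu (C.trunc l) ⟶ X, HasValues l G' v ∧
        G'.map ((Table.map (φ a) c).toTrunc hcb) =
          G.map ((Table.map (φ a) c).toTrunc fun i s hi => hN' i hi _) := by
      refine ⟨skel C l ≫ nuFunctor.map (C.truncProj N hN) ≫ G, fun i y d hi hd h => ?_, ?_⟩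
      · have hiN : i ≤ N := by
          by_contra hlt
          exact (hN i (by omega)).false y
        show G.map (Table.map (C.truncProj N hN) (Table.map (C.truncIncl l) (d.toTrunc h))) = _
        rw [Table.map_toTrunc]
        exact hG i y d hiN hd fun j s hj => hN' j hj _
      · show G.map (Table.map (C.truncProj N hN) (Table.map (C.truncIncl l) _)) = _
        rw [Table.map_toTrunc]
        rfl
    rw [← hG'H]
    exact compat l G' hG' a l b c le_rfl hc _
  · exact compat N G hG a l b c hl hc _

end

end Vale.Agent.P213.ADC
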