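import Vale.Agent.P213.Cyl.PushExt

/-!
# The cylinder of an `n`-category has no cells above dimension `n`
-/

open CategoryTheory

namespace Vale.Agent.P213.ADC

noncomputable section

namespace CylCell

variable {X : OCat}

/-- In the cylinder of an `n`-category, cells are their own `k`-faces for `k ≥ n`. -/
theorem face_eq_of_dimLE {n : ℕ∞} (hX : OCat.DimLE n X) {k : ℕ} (hk : n ≤ (k : ℕ∞))
    (F : CylCell X) : F.face k false = F := by
  obtain ⟨N, hN⟩ := F.dim
  rcases le_or_gt N k with hNk | hkN
  · exact CylCell.ext (DimAt.mono hN hNk)
  suffices h : pre (globeHom N ((globeCell N).face k false)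
      (fun l s hl => Le.face (globeCell_above N) k false l s hl)) ≫ F.toGlobe N = F.toGlobe N by
    have h1 := congrArg (fun Φ => push (globeCell N) Φ) h
    simp only [← push_map, globeHom_cell, ← push_face, push_toGlobe hN] at h1
    exact h1
  refine hom_ext_dimLE freeUnique (globe_isSteiner N).cyl hX hk fun l y c hl hc => ?_
  have hlow : ∀ i, i < k → ∀ s, Table.map (globeHom N ((globeCell N).face k false)
      (fun l s hl => Le.face (globeCell_above N) k false l s hl)) ((globeCell N).face i s) =
      (globeCell N).face i s := by
    intro i hi s
    rw [Table.map_face, globeHom_cell]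
    refine Table.ext (funext fun m => funext fun t => ?_)
    simp only [Table.face_x]
    split_ifs <;> first | rfl | omega
  show (F.toGlobe N).map (Table.map (cylMap _) c) = (F.toGlobe N).map c
  cases y with
  | ends e q =>
    obtain rfl := hc.unique ((isAtom_globe q).cylEnd e)
    rw [Table.map_cylMap_cylEnd]
    rcases Nat.lt_or_eq_of_le hl with hlk | rfl
    · rw [hlow l hlk]
    · rw [Table.map_face, globeHom_cell,
        Table.face_eq_self (le_face (globeCell N) l false)]
      have h1 := map_face_of_dimLE hX hk (nuFunctor.map (cylEnd e (globe N)) ≫ F.toGlobe N)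
        (globeCell N)
      exact (h1 false).trans (h1 q.1).symm
  | mid q =>
    rename_i l
    obtain rfl := hc.unique (isAtom_globe q).cylMid
    rw [Table.map_cylMap_cylMid, hlow l (by omega)]

end CylCell

end

end Vale.Agent.P213.ADC
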