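import Vale.Agent.P213.Cyl.Gamma

/-!
# Ends and constants of the cylinder
-/

open CategoryTheory

namespace Vale.Agent.P213.ADC

noncomputable section

variable {X Y : OCat} {K : ADC}

namespace CylCell

/-- The end `e` of a cell of the cylinder, computed at a bound `N` of its dimension. -/
def evAt (e : Bool) (N : ℕ) (F : CylCell X) : X.Cell :=
  F.hom.map (Table.map (cylEnd e Ginf) (gface N false))

lemma evAt_push (e : Bool) (N : ℕ) (a : Table K) (Φ : nu (cyl K) ⟶ X) :
    (push a Φ).evAt e N = Φ.map (Table.map (cylEnd e K) (a.face N false)) := by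
  show Φ.map (Table.map (cylMap (lift a)) (Table.map (cylEnd e Ginf) (gface N false))) = _
  rw [Table.map_cylMap_cylEnd, map_gface]

lemma evAt_of_le {e : Bool} {N M : ℕ} {F : CylCell X} (h : F.DimAt N) (hM : N ≤ M) :
    F.evAt e M = F.evAt e N := by
  obtain ⟨Φ, rfl⟩ : ∃ Φ, push (globeCell N) Φ = F := ⟨F.toGlobe N, push_toGlobe h⟩
  rw [evAt_push, evAt_push, Table.face_eq_self (globeCell_above N),
    Table.face_eq_self fun l s hl => globeCell_above N l s (by omega)]

/-- The end `e` of a cell of the cylinder. -/
def ev (e : Bool) (F : CylCell X) : X.Cell := F.evAt e (Classical.choose F.dim)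

lemma ev_eq {e : Bool} {N : ℕ} {F : CylCell X} (h : F.DimAt N) : F.ev e = F.evAt e N := by
  have h' : F.DimAt (Classical.choose F.dim) := Classical.choose_spec F.dim
  rcases le_total N (Classical.choose F.dim) with hN | hN
  · exact evAt_of_le h hN
  · exact (evAt_of_le h' hN).symm

lemma ev_push (e : Bool) (a : Table K) (Φ : nu (cyl K) ⟶ X) :
    (push a Φ).ev e = Φ.map (Table.map (cylEnd e K) a) := by
  obtain ⟨N, hN⟩ := a.exists_le
  rw [ev_eq (push_dimAt hN Φ), evAt_push, Table.face_eq_self hN]

end CylCell

open CylCell

/-- An end of the cylinder, as a functor. -/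
def evHom (hE : FreeExtendGoal) (e : Bool) (X : OCat) : gammaObj hE X ⟶ X where
  map F := F.ev e
  map_src i F := by
    obtain ⟨N, Φ, rfl⟩ := F.exists_push
    show ((push (globeCell N) Φ).face i false).ev e = _
    rw [push_face, ev_push, ev_push, Table.map_face]
    exact Φ.map_src i _
  map_tgt i F := by
    obtain ⟨N, Φ, rfl⟩ := F.exists_push
    show ((push (globeCell N) Φ).face i true).ev e = _
    rw [push_face, ev_push, ev_push, Table.map_face]
    exact Φ.map_tgt i _
  map_comp i a b h h' := by
    obtain ⟨K, hK, u, v, huv, Φ, rfl, rfl⟩ := exists_rep hE i a b h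
    have huv' : (Table.map (cylEnd e K) u).face i false = (Table.map (cylEnd e K) v).face i true :=
      (Table.map_face _ u i false).symm.trans ((congrArg _ huv).trans (Table.map_face _ v i true))
    show (CylCell.comp hE i _ _ h).ev e = _
    simp only [comp_push hE hK h huv rfl rfl, ev_push, Table.map_comp _ i u v huv huv']
    exact Φ.map_comp i _ _ huv' _

/-- The ends of the cylinder. -/
def gammaEv (hE : FreeExtendGoal) (e : Bool) : gamma hE ⟶ 𝟭 OCat where
  app := evHom hE e
  naturality X Y f := by
    refine OCat.hom_ext fun F => ?_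
    obtain ⟨N, Φ, rfl⟩ := CylCell.exists_push F
    show ((push (globeCell N) Φ).map f).ev e = f.map ((push (globeCell N) Φ).ev e)
    rw [map_push, ev_push, ev_push]
    rfl

/-! ### Functors out of globes -/

/-- Functors out of `ν D_N` agreeing on the top cell are equal. -/
lemma nu_globe_ext {N : ℕ} {F G : nu (globe N) ⟶ X}
    (h : F.map (globeCell N) = G.map (globeCell N)) : F = G := by
  refine freeUnique _ (globe_isSteiner N) X F G fun l b c hc => ?_
  obtain rfl := hc.unique (isAtom_globe b)
  cases hb : b.1
  · exact (F.map_src l _).trans ((congrArg (X.src l) h).trans (G.map_src l _).symm)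
  · exact (F.map_tgt l _).trans ((congrArg (X.tgt l) h).trans (G.map_tgt l _).symm)

/-- A cell of dimension at most `N` is named by a functor out of `ν D_N`. -/
theorem exists_nu_globe (hE : FreeExtendGoal) {N : ℕ} {a : X.Cell} (ha : X.src N a = a) :
    ∃ F : nu (globe N) ⟶ X, F.map (globeCell N) = a := by
  let v : ∀ l, GlobeB N l → X.Cell := fun l b => bif b.1 then X.tgt l a else X.src l a
  have hv : ∀ l b, X.src l (v l b) = v l b := by
    intro l b
    show X.src l (bif b.1 then _ else _) = bif b.1 then _ else _
    cases b.1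
    · show X.src l (X.src l a) = X.src l a
      rw [X.src_src, min_self]
    · exact X.src_tgt_ge l l a le_rfl
  have step : ∀ k, ∃ G : nu ((globe N).trunc k) ⟶ X, ∀ (l : ℕ) (b : GlobeB N l)
      (c : Table (globe N)), l ≤ k → (globe N).IsAtom b c → ∀ h, G.map (c.toTrunc h) = v l b := by
    intro k
    induction k with
    | zero =>
      obtain ⟨G, hG⟩ := exists_hom_trunc_zero (globe_isSteiner N) (v 0) (hv 0)
      exact ⟨G, fun l b c hl hc h => by obtain rfl := Nat.le_zero.1 hl; exact hG b c h hc⟩
    | succ k ih =>
      obtain ⟨G, hG⟩ := ih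
      obtain ⟨G', hG', hGv⟩ := exists_extend hE (globe_isSteiner N) G (v (k + 1)) (hv (k + 1))
        fun b c hs ht hc => by
          obtain rfl := hc.unique (isAtom_globe b)
          have hk : k < N := by have := b.2; omega
          have key : ∀ s h, G.map ((((globeCell N).face (k + 1) b.1).face k s).toTrunc h) =
              v k (GlobeB.side hk s) := by
            intro s h
            have e := Table.face_face_lt (globeCell N) (Nat.lt_succ_self k) s b.1
            simp only [e]
            exact hG k (GlobeB.side hk s) _ le_rfl (isAtom_globe (GlobeB.side hk s)) _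
          rw [key false hs, key true ht]
          show X.src k (bif b.1 then _ else _) = _ ∧ X.tgt k (bif b.1 then _ else _) = _
          cases b.1
          · exact ⟨(X.src_src k (k + 1) a).trans (by rw [min_eq_left k.le_succ]; rfl),
              X.tgt_src_lt k (k + 1) a k.lt_succ_self⟩
          · exact ⟨X.src_tgt_lt k (k + 1) a k.lt_succ_self,
              (X.tgt_tgt k (k + 1) a).trans (by rw [min_eq_left k.le_succ]; rfl)⟩
      refine ⟨G', fun l b c hl hc h => ?_⟩
      rcases Nat.lt_or_eq_of_le hl with hl' | rfl
      · have hck : ∀ i s, k < i → c.x i s = 0 := fun i s hi => hc.above i s (by omega)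
        rw [← hG l b c (by omega) hc hck, ← hG']
        refine congrArg G'.map (Table.map_truncIncl_injective ?_)
        show Table.map _ (c.toTrunc h) = Table.map _ (c.toTrunc hck).raise
        rw [Table.map_raise, Table.map_toTrunc, Table.map_toTrunc]
      · exact hGv b c h hc
  have hN : ∀ l, N < l → IsEmpty ((globe N).B l) := fun l hl =>
    ⟨fun b => by have := b.2; omega⟩
  obtain ⟨G, hG⟩ := step N
  refine ⟨nuFunctor.map ((globe N).truncProj N hN) ≫ G, ?_⟩
  refine Eq.trans ?_ ((hG N (GlobeB.top N) (globeCell N) le_rfl (isAtom_globe_top N)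
    (globeCell_above N)).trans ((show v N (GlobeB.top N) = X.tgt N a from rfl).trans
      (X.tgt_self ha)))
  rfl

/-- The functor out of `ν Ginf` classifying a cell. -/
def classify (hE : FreeExtendGoal) (a : X.Cell) : nu Ginf ⟶ X :=
  nuFunctor.map (q (Classical.choose (X.exists_dim a))) ≫
    Classical.choose (exists_nu_globe hE (Classical.choose_spec (X.exists_dim a)))

lemma classify_eq (hE : FreeExtendGoal) {N : ℕ} {a : X.Cell} (ha : X.src N a = a)
    (F : nu (globe N) ⟶ X) (hF : F.map (globeCell N) = a) :
    classify hE a = nuFunctor.map (q N) ≫ F := by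
  have key : ∀ (n M : ℕ) (G₀ : nu (globe n) ⟶ X) (G : nu (globe M) ⟶ X),
      G₀.map (globeCell n) = a → G.map (globeCell M) = a → n ≤ M →
      nuFunctor.map (q n) ≫ G₀ = nuFunctor.map (q M) ≫ G := by
    intro n M G₀ G h₀ h hn
    have hc : ∀ l s, M < l → (globeCell n).x l s = 0 :=
      fun l s hl => globeCell_above n l s (by omega)
    obtain rfl : G = nuFunctor.map (globeHom M (globeCell n) hc) ≫ G₀ :=
      nu_globe_ext (h.trans (h₀.symm.trans (congrArg G₀.map (globeHom_cell M _ hc).symm)))
    refine OCat.hom_ext fun c => congrArg G₀.map ?_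
    show Table.map (q n) c = Table.map (globeHom M _ hc) (Table.map (q M) c)
    exact congrArg (fun f : Ginf ⟶ globe n => Table.map f c) (q_globeHom M _ hc).symm
  obtain ⟨G, hG⟩ := exists_nu_globe hE (X.src_of_le ha
    (le_max_left N (Classical.choose (X.exists_dim a))))
  exact (key _ _ _ G (Classical.choose_spec (exists_nu_globe hE
    (Classical.choose_spec (X.exists_dim a)))) hG (le_max_right _ _)).trans
    (key N _ F G hF hG (le_max_left _ _)).symm

lemma classify_map (hE : FreeExtendGoal) (G : nu K ⟶ X) (c : Table K) :
    classify hE (G.map c) = nuFunctor.map (lift c) ≫ G := by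
  obtain ⟨N, hN⟩ := c.exists_le
  rw [classify_eq hE (N := N) ((G.map_src N c).symm.trans
      (congrArg G.map (Table.face_eq_self hN false)))
    (nuFunctor.map (globeHom N c hN) ≫ G) (congrArg G.map (globeHom_cell N c hN))]
  refine OCat.hom_ext fun d => congrArg G.map ?_
  show Table.map (globeHom N c hN) (Table.map (q N) d) = Table.map (lift c) d
  rw [← q_globeHom N c hN]
  rfl

/-- The constant cell at `a`. -/
def constCell (hE : FreeExtendGoal) (a : X.Cell) : CylCell X where
  hom := nuFunctor.map (cylProj Ginf) ≫ classify hE a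
  dim := by
    obtain ⟨N, ha⟩ := X.exists_dim a
    obtain ⟨F, hF⟩ := exists_nu_globe hE ha
    refine ⟨N, ?_⟩
    rw [classify_eq hE ha F hF]
    refine OCat.hom_ext fun d => congrArg F.map ?_
    show Table.map (q N) (Table.map (cylProj Ginf) (Table.map (cylMap (endo N false)) d)) =
      Table.map (q N) (Table.map (cylProj Ginf) d)
    have e : cylMap (endo N false) ≫ cylProj Ginf ≫ q N = cylProj Ginf ≫ q N := by
      rw [← Category.assoc, cylProj_naturality, Category.assoc, q, endo_lift,
        Table.face_eq_self (globeCell_above N)]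
    exact congrArg (fun f : cyl Ginf ⟶ globe N => Table.map f d) e

lemma constCell_map (hE : FreeExtendGoal) (G : nu K ⟶ X) (c : Table K) :
    constCell hE (G.map c) = push c (nuFunctor.map (cylProj K) ≫ G) := by
  refine CylCell.ext ?_
  show nuFunctor.map (cylProj Ginf) ≫ classify hE _ = pre (lift c) ≫ nuFunctor.map (cylProj K) ≫ G
  rw [classify_map]
  refine OCat.hom_ext fun d => congrArg G.map ?_
  exact (congrArg (fun f : cyl Ginf ⟶ K => Table.map f d) (cylProj_naturality (lift c))).symm

lemma ev_constCell (hE : FreeExtendGoal) (e : Bool) (a : X.Cell) :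
    (constCell hE a).ev e = a := by
  obtain ⟨N, ha⟩ := X.exists_dim a
  obtain ⟨F, rfl⟩ := exists_nu_globe hE ha
  rw [constCell_map, ev_push]
  exact congrArg F.map
    (congrArg (fun f : globe N ⟶ globe N => Table.map f (globeCell N)) (cylEnd_proj e))

/-- The constants, as a functor. -/
def constHom (hE : FreeExtendGoal) (X : OCat) : X ⟶ gammaObj hE X where
  map := constCell hE
  map_src i a := by
    obtain ⟨N, ha⟩ := X.exists_dim a
    obtain ⟨F, rfl⟩ := exists_nu_globe hE ha
    show constCell hE (X.src i (F.map _)) = (constCell hE _).face i false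
    rw [constCell_map, push_face]
    exact (congrArg (constCell hE) (F.map_src i (globeCell N)).symm).trans (constCell_map hE F _)
  map_tgt i a := by
    obtain ⟨N, ha⟩ := X.exists_dim a
    obtain ⟨F, rfl⟩ := exists_nu_globe hE ha
    show constCell hE (X.tgt i (F.map _)) = (constCell hE _).face i true
    rw [constCell_map, push_face]
    exact (congrArg (constCell hE) (F.map_tgt i (globeCell N)).symm).trans (constCell_map hE F _)
  map_comp i a b h h' := by
    obtain ⟨K, hK, u, v, huv, Φ, hu, hv⟩ :=
      exists_rep hE i (constCell hE a) (constCell hE b) h'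
    obtain rfl : (nuFunctor.map (cylEnd false K) ≫ Φ).map u = a :=
      ((ev_push false u Φ).symm.trans (congrArg (CylCell.ev false) hu)).trans
        (ev_constCell hE false a)
    obtain rfl : (nuFunctor.map (cylEnd false K) ≫ Φ).map v = b :=
      ((ev_push false v Φ).symm.trans (congrArg (CylCell.ev false) hv)).trans
        (ev_constCell hE false b)
    rw [← (nuFunctor.map (cylEnd false K) ≫ Φ).map_comp i u v huv h]
    exact (constCell_map hE _ _).trans (comp_push hE hK h' huv
      (constCell_map hE _ u).symm (constCell_map hE _ v).symm).symm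

/-- The constants of the cylinder. -/
def gammaConst (hE : FreeExtendGoal) : 𝟭 OCat ⟶ gamma hE where
  app := constHom hE
  naturality X Y f := by
    refine OCat.hom_ext fun a => ?_
    obtain ⟨N, ha⟩ := X.exists_dim a
    obtain ⟨F, rfl⟩ := exists_nu_globe hE ha
    show constCell hE (f.map (F.map _)) = (constCell hE (F.map _)).map f
    rw [constCell_map, map_push]
    exact (constCell_map hE (F ≫ f) _).trans
      (congrArg (push _) (Category.assoc (nuFunctor.map (cylProj (globe N))) F f).symm)

lemma gammaConst_ev (hE : FreeExtendGoal) (e : Bool) (X : OCat) :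
    (gammaConst hE).app X ≫ (gammaEv hE e).app X = 𝟙 X :=
  OCat.hom_ext fun a => ev_constCell hE e a

end

end Vale.Agent.P213.ADC
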