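import Vale.Agent.P213.Cyl.Adj
import Vale.Agent.P213.Cyl.Ends
import Vale.Agent.P213.Cyl.DimLE
import Vale.Agent.P213.Cplx.ChainsSteiner
import Vale.Agent.P213.Free.Extend.Main
import Vale.Agent.P213.Homotopy.Data

/-!
# The cylinder satisfies the interface of the homotopy layer
-/

open CategoryTheory

namespace Vale.Agent.P213.ADC

noncomputable section

variable {X : OCat} {K : ADC}

lemma pushHom_ev (hE : FreeExtendGoal) (hK : K.IsSteiner) (e : Bool) (Φ : nu (cyl K) ⟶ X) :
    pushHom hE hK Φ ≫ (gammaEv hE e).app X = nuFunctor.map (cylEnd e K) ≫ Φ :=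
  OCat.hom_ext fun a => CylCell.ev_push e a Φ

lemma pushHom_const (hE : FreeExtendGoal) (hK : K.IsSteiner) (F : nu K ⟶ X) :
    pushHom hE hK (nuFunctor.map (cylProj K) ≫ F) = F ≫ (gammaConst hE).app X :=
  OCat.hom_ext fun a => (constCell_map hE F a).symm

lemma gamma_dimLE (hE : FreeExtendGoal) {n : ℕ∞} (hX : OCat.DimLE n X) :
    OCat.DimLE n ((gamma hE).obj X) :=
  fun _ F hk => CylCell.face_eq_of_dimLE hX hk F

end

end Vale.Agent.P213.ADC

namespace Vale.Agent.P213.Homotopy

noncomputable section

open ADC

/-- The functor cylinder `Γ`, with all that the homotopy layer consumes. -/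
def cylData : CylData where
  Γ := gamma freeExtend
  ev := gammaEv freeExtend
  cst := gammaConst freeExtend
  cst_ev := gammaConst_ev freeExtend
  dimLE _ _ h := gamma_dimLE freeExtend h
  adj p _ := adjEquiv freeExtend (oriental_isSteiner p.len)
  adj_map {p q} θ Y F :=
    adjEquiv_comp freeExtend (oriental_isSteiner p.len) (oriental_isSteiner q.len)
      (chainsMap θ.toOrderHom) F
  adj_comp {p Y Z} F g := adjEquiv_gammaMap freeExtend (oriental_isSteiner p.len) F g
  adj_ev e {p Y} F := by
    conv_lhs => rw [← pushHom_adjEquiv freeExtend (oriental_isSteiner p.len) F]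
    exact pushHom_ev freeExtend (oriental_isSteiner p.len) e _
  adj_cst {p Y} F :=
    (adjEquiv_eq_iff freeExtend (oriental_isSteiner p.len) _ _).2
      (pushHom_const freeExtend (oriental_isSteiner p.len) F)

end

end Vale.Agent.P213.Homotopy
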