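import Vale.Agent.P213.Cyl.Trunc

/-!
# Functors from `ν K` into an `n`-category

Such functors are determined by the atoms of dimension at most `n`.
-/

open CategoryTheory

namespace Vale.Agent.P213.ADC

noncomputable section

variable {K : ADC}

/-- The inclusion of a skeleton as a functor. -/
def skel (K : ADC) (k : ℕ) : nu (K.trunc k) ⟶ nu K := nuFunctor.map (K.truncIncl k)

lemma Table.face_le (c : Table K) (k : ℕ) (e : Bool) (l : ℕ) (s : Bool) (hl : k < l) :
    (c.face k e).x l s = 0 := by
  rw [Table.face_x, if_neg (by omega), if_neg (by omega)]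

/-- In a category with identities above dimension `n`, a functor sees only `n`-dimensional faces. -/
lemma map_face_of_dimLE {n : ℕ∞} {X : OCat} (hX : OCat.DimLE n X) {k : ℕ} (hk : n ≤ (k : ℕ∞))
    (F : nu K ⟶ X) (c : Table K) (e : Bool) : F.map (c.face k e) = F.map c := by
  cases e
  · exact (F.map_src k c).trans (hX k _ hk)
  · refine (F.map_tgt k c).trans ?_
    have h := X.tgt_src_ge k k (F.map c) le_rfl
    rwa [hX k _ hk] at h

/-- Two functors into an `n`-category that agree on atoms of dimension at most `k ≥ n` are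
equal. -/
theorem hom_ext_dimLE (hU : FreeUniqueGoal) (hK : K.IsSteiner) {n : ℕ∞} {X : OCat}
    (hX : OCat.DimLE n X) {k : ℕ} (hk : n ≤ (k : ℕ∞)) {F G : nu K ⟶ X}
    (h : ∀ (l : ℕ) (b : K.B l) (c : Table K), l ≤ k → K.IsAtom b c → F.map c = G.map c) :
    F = G := by
  have h₀ : K.skel k ≫ F = K.skel k ≫ G :=
    hom_ext_trunc hU hK fun l b hl c hc => h l b _ hl hc
  refine OCat.hom_ext fun c => ?_
  rw [← map_face_of_dimLE hX hk F c false, ← map_face_of_dimLE hX hk G c false,
    ← Table.map_toTrunc (Table.face c k false) (Table.face_le c k false)]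
  exact congrArg (fun f : nu (K.trunc k) ⟶ X => f.map _) h₀

end

end Vale.Agent.P213.ADC
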