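import Vale.Agent.P213.Cyl.Charts
import Vale.Agent.P213.Cplx.Cylinder
import Vale.Agent.P213.Cplx.GlobeSteiner
import Vale.Agent.P213.Colim.FinPres
import Vale.Agent.P213.Free.Basic

/-!
# Functors out of `ν (K ⊗ I)` from their restrictions along the cells of `ν K`

Given, for every cell `c` of dimension at most `l`, a functor `P l c : ν (D_l ⊗ I) ⟶ X`, compatible
with faces and determined by its values on atoms (`Spreads`), there is a functor on `ν (K ⊗ I)`
restricting to all of them.  With `P` the family of a functor `ν K ⟶ Γ X` this is the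
correspondence with functors `ν (K ⊗ I) ⟶ X`.
-/

open CategoryTheory

namespace Vale.Agent.P213.ADC

noncomputable section

variable {K L : ADC}

lemma Table.map_cylMap_cylMid (φ : K ⟶ L) (a : Table K) :
    Table.map (cylMap φ) a.cylMid = (Table.map φ a).cylMid := by
  refine Table.ext (funext fun l => funext fun s => ?_)
  cases l with
  | zero => exact cylMapF_iEnd φ 0 _ _
  | succ l => exact (map_add _ _ _).trans (congrArg₂ _ (cylMapF_iMid φ l _) (cylMapF_iEnd φ _ _ _))

lemma Table.map_cylMap_cylEnd (φ : K ⟶ L) (e : Bool) (a : Table K) :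
    Table.map (cylMap φ) (Table.map (cylEnd e K) a) = Table.map (cylEnd e L) (Table.map φ a) :=
  (congrArg (fun u : K ⟶ cyl L => Table.map u a) (cylEnd_naturality e φ)).symm

lemma isAtom_globe_top (k : ℕ) : (globe k).IsAtom (GlobeB.top k) (globeCell k) where
  top s := by simp [globeCell, globeGen, gen]
  above l s h := globeCell_above k l s h
  min l h := by
    simp only [globeCell, globeGen, dif_pos h]
    ext b
    rw [Finsupp.inf_apply, Finsupp.single_apply, Finsupp.single_apply]
    split_ifs <;> simp_all [GlobeB.side, Subtype.ext_iff]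

lemma isAtom_globe {k l : ℕ} (b : GlobeB k l) :
    (globe k).IsAtom b ((globeCell k).face l b.1) where
  top s := by
    rw [Table.face_x, if_neg (lt_irrefl l), if_pos rfl]
    exact globeCell_side b
  above i s h := by rw [Table.face_x, if_neg (by omega), if_neg (by omega)]
  min i h := by
    rw [Table.face_x, Table.face_x, if_pos h, if_pos h]
    exact (isAtom_globe_top k).min i (by have := b.2; omega)

/-- A morphism with nothing above `j` corestricts to the truncation. -/
def corestr (j : ℕ) (φ : L ⟶ K) (h : ∀ l, j < l → ∀ x, φ.f l x = 0) : L ⟶ K.trunc j where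
  f l := (K.truncOut j l).comp (φ.f l)
  pos l x hx b := φ.pos l x hx b.1
  comm l x := by
    show K.truncOut j l (φ.f l (L.d l x)) =
      K.truncOut j l (K.d l (K.truncIn j (l + 1) (K.truncOut j (l + 1) (φ.f (l + 1) x))))
    by_cases hl : l + 1 ≤ j
    · rw [truncIn_out hl, φ.comm]
    · rw [φ.comm, h (l + 1) (by omega) x]
      simp
  aug x := by
    show K.ε (K.truncIn j 0 (K.truncOut j 0 (φ.f 0 x))) = L.ε x
    rw [truncIn_out (Nat.zero_le j), φ.aug]

/-- The inclusion of one skeleton into a larger one. -/
def truncLE (K : ADC) {i j : ℕ} (hij : i ≤ j) : K.trunc i ⟶ K.trunc j :=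
  corestr j (K.truncIncl i) fun l hl x =>
    (congrArg (K.truncIn i l) (truncChain_eq_zero (by omega) x)).trans (map_zero _)

lemma Table.map_truncLE {i j : ℕ} (hij : i ≤ j) (c : Table (K.trunc i)) :
    Table.map (K.truncIncl j) (Table.map (K.truncLE hij) c) = Table.map (K.truncIncl i) c := by
  refine Table.ext (funext fun l => funext fun s => ?_)
  show K.truncIn j l (K.truncOut j l (K.truncIn i l (c.x l s))) = K.truncIn i l (c.x l s)
  by_cases hl : l ≤ j
  · exact truncIn_out hl _
  · rw [truncChain_eq_zero (by omega : ¬ l ≤ i) (c.x l s)]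
    simp

/-- The morphism of a cell of dimension at most `l ≤ j` into the `j`-skeleton. -/
def cellHom {l j : ℕ} (hlj : l ≤ j) (c : Table K) (hc : Le l c) : globe l ⟶ K.trunc j :=
  globeHom l (c.toTrunc (hc.mono hlj)) fun i s hi =>
    (congrArg (K.truncOut j i) (hc i s hi)).trans (map_zero _)

lemma map_cellHom {l j : ℕ} (hlj : l ≤ j) (c : Table K) (hc : Le l c) :
    Table.map (cellHom hlj c hc) (globeCell l) = c.toTrunc (hc.mono hlj) :=
  globeHom_cell _ _ _

lemma cellHom_incl {l j : ℕ} (hlj : l ≤ j) (c : Table K) (hc : Le l c) :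
    cellHom hlj c hc ≫ K.truncIncl j = globeHom l c hc := by
  refine globe_hom_ext ?_
  show Table.map (K.truncIncl j) (Table.map (cellHom hlj c hc) (globeCell l)) = _
  exact ((congrArg _ (map_cellHom hlj c hc)).trans (Table.map_toTrunc _ _)).trans
    (globeHom_cell l c hc).symm

lemma cellHom_cell_incl {l j : ℕ} (hlj : l ≤ j) (c : Table K) (hc : Le l c) :
    Table.map (K.truncIncl j) (Table.map (cellHom hlj c hc) (globeCell l)) = c :=
  (congrArg _ (map_cellHom hlj c hc)).trans (Table.map_toTrunc _ _)

lemma map_cylMap_comp {L' M : ADC} (f : L ⟶ L') (g : L' ⟶ M) (x : Table (cyl L)) :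
    Table.map (cylMap (f ≫ g)) x = Table.map (cylMap g) (Table.map (cylMap f) x) :=
  congrArg (fun u : cyl L ⟶ cyl M => Table.map u x) (cylFunctor.map_comp f g)

lemma nuCylMap_comp {L' M : ADC} {X : OCat} (f : L ⟶ L') (g : L' ⟶ M) (E : nu (cyl M) ⟶ X) :
    nuFunctor.map (cylMap (f ≫ g)) ≫ E =
      nuFunctor.map (cylMap f) ≫ nuFunctor.map (cylMap g) ≫ E := by
  refine OCat.hom_ext fun a => congrArg E.map ?_
  exact congrArg (fun u : cyl L ⟶ cyl M => Table.map u a) (cylFunctor.map_comp f g)

variable {X : OCat} (P : ∀ (l : ℕ) (c : Table K), Le l c → (nu (cyl (globe l)) ⟶ X))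

/-- The family is compatible with faces. -/
def FaceCompat : Prop :=
  ∀ (l : ℕ) (c : Table K) (hc : Le l c) (i : ℕ) (_hi : i < l) (s : Bool),
    nuFunctor.map (cylMap (globeFace l i s)) ≫ P l c hc = P i (c.face i s) (le_face c i s)

/-- `E` restricts to the family on the atoms of the skeleton. -/
def AtomRestr (j : ℕ) (E : nu (cyl (K.trunc j)) ⟶ X) : Prop :=
  ∀ (l : ℕ) (b : K.B l) (c : Table K) (hl : l ≤ j) (hc : K.IsAtom b c),
    nuFunctor.map (cylMap (cellHom hl c hc.above)) ≫ E = P l c hc.above

/-- The family is determined by its values on atoms. -/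
def Spreads : Prop :=
  ∀ (j : ℕ) (E : nu (cyl (K.trunc j)) ⟶ X), AtomRestr P j E →
    ∀ (c : Table K) (hc : Le j c), nuFunctor.map (cylMap (cellHom le_rfl c hc)) ≫ E = P j c hc

theorem exists_atomRestr (hU : FreeUniqueGoal) (hX : FreeExtendGoal) (hK : K.IsSteiner)
    (hF : FaceCompat P) (hS : Spreads P) : ∀ j, ∃ E, AtomRestr P j E := by
  choose at0 hat0 using hK.unital
  have hcongr : ∀ (l : ℕ) (c c' : Table K) (h : Le l c) (h' : Le l c'), c = c' →
      P l c h = P l c' h' := fun l c c' h h' e => by subst e; rfl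
  intro j
  induction j using Nat.strong_induction_on with
  | _ j ih =>
  let A := Σ l, {_b : K.B l // l ≤ j}
  let ac : ∀ a : A, Table K := fun a => at0 a.1 a.2.1
  have hac : ∀ a : A, K.IsAtom a.2.1 (ac a) := fun a => hat0 _ _
  let φ : ∀ a : A, cyl (globe a.1) ⟶ cyl (K.trunc j) := fun a =>
    cylMap (cellHom a.2.2 (ac a) (hac a).above)
  let H : ∀ a : A, nu (cyl (globe a.1)) ⟶ X := fun a => P a.1 (ac a) (hac a).above
  let v : ∀ l, CylB (K.trunc j).B l → X.Cell := fun l y => match l, y with
    | l, .ends e b => (H ⟨l, b⟩).map (Table.map (cylEnd e (globe l)) (globeCell l))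
    | _, .mid (k := l) b => (H ⟨l, b⟩).map (globeCell l).cylMid
  have htop : ∀ a : A, (K.trunc j).IsAtom a.2 (Table.map (cellHom a.2.2 (ac a) (hac a).above)
      (globeCell a.1)) := fun a => by
    have e := (congrArg (Table.map (K.truncIncl j))
      (map_cellHom a.2.2 (ac a) (hac a).above)).trans (Table.map_toTrunc _ _)
    exact (isAtom_trunc_iff _ _).2 (e.symm ▸ hac a)
  have himgE : ∀ (a : A) e, (cyl (K.trunc j)).IsAtom (CylB.ends e a.2)
      (Table.map (φ a) (Table.map (cylEnd e (globe a.1)) (globeCell a.1))) := fun a e => by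
    rw [Table.map_cylMap_cylEnd]
    exact (htop a).cylEnd e
  have himgM : ∀ a : A, (cyl (K.trunc j)).IsAtom (k := a.1 + 1) (CylB.mid a.2)
      (Table.map (φ a) (globeCell a.1).cylMid) := fun a => by
    rw [Table.map_cylMap_cylMid]
    exact (htop a).cylMid
  have hv : ∀ l y, X.src l (v l y) = v l y := fun l y => by
    cases y with
    | ends e b =>
      refine ((H ⟨l, b⟩).map_src l _).symm.trans (congrArg _ ?_)
      exact Le.face_eq (((isAtom_globe_top l).cylEnd e).above) le_rfl false
    | mid b =>
      rename_i l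
      refine ((H ⟨l, b⟩).map_src (l + 1) _).symm.trans (congrArg _ ?_)
      exact Le.face_eq ((isAtom_globe_top l).cylMid.above) le_rfl false
  have cover : ∀ (l : ℕ) (y : CylB (K.trunc j).B l), ∃ (a : A) (b : CylB (GlobeB a.1) l)
      (c : Table (cyl (globe a.1))), (cyl (globe a.1)).IsAtom b c ∧
      (cyl (K.trunc j)).IsAtom y (Table.map (φ a) c) ∧ (H a).map c = v l y := fun l y => by
    cases y with
    | ends e b => exact ⟨⟨l, b⟩, _, _, (isAtom_globe_top l).cylEnd e, himgE ⟨l, b⟩ e, rfl⟩
    | mid b =>
      rename_i l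
      exact ⟨⟨l, b⟩, _, _, (isAtom_globe_top l).cylMid, himgM ⟨l, b⟩, rfl⟩
  have compat : ∀ (k : ℕ) (G : nu ((cyl (K.trunc j)).trunc k) ⟶ X), HasValues k G v →
      ∀ a, AgreesUpTo k G (φ a) (H a) := by
    intro k G hG a
    have lower : ∀ (i : ℕ) (hi : i < a.1) (s : Bool) (x : Table (cyl (globe i))),
        ∀ hx : Le k x, G.map ((Table.map (φ a) (Table.map (cylMap (globeFace a.1 i s)) x)).toTrunc
          (Table.map_above _ _ (Table.map_above _ x hx))) =
        (H a).map (Table.map (cylMap (globeFace a.1 i s)) x) := by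
      intro i hi s x hx
      obtain ⟨E, hE⟩ := ih i (lt_of_lt_of_le hi a.2.2)
      have hij : i ≤ j := le_trans hi.le a.2.2
      have hag : AgreesUpTo k G (cylMap (K.truncLE hij)) E := by
        intro l y c hl hc h
        cases y with
        | ends e b =>
          obtain ⟨c₀, hc₀⟩ := hK.trunc.unital l b
          have hK₀ := (isAtom_trunc_iff b c₀).1 hc₀
          have e₀ : Table.map (cellHom b.2 _ hK₀.above) (globeCell l) = c₀ :=
            (map_cellHom _ _ _).trans (Table.toTrunc_map c₀)
          obtain rfl := hc.unique (hc₀.cylEnd e)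
          have h2 := congrArg (fun f : nu (cyl (globe l)) ⟶ X =>
            f.map (Table.map (cylEnd e (globe l)) (globeCell l))) (hE l b.1 _ b.2 hK₀)
          have h3 : E.map (Table.map (cylEnd e _) c₀) = _ :=
            (congrArg E.map ((Table.map_cylMap_cylEnd (cellHom b.2 _ hK₀.above) e _).trans
              (congrArg (Table.map (cylEnd e _)) e₀))).symm.trans h2
          have hb : K.IsAtom b.1 (Table.map (K.truncIncl i) c₀) := hK₀
          obtain heq := hb.unique (hat0 l b.1)
          have hatom : (cyl (K.trunc j)).IsAtom (CylB.ends e (⟨b.1, le_trans b.2 hij⟩ :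
              (K.trunc j).B l)) (Table.map (cylMap (K.truncLE hij))
              (Table.map (cylEnd e _) c₀)) := by
            rw [Table.map_cylMap_cylEnd]
            refine ((isAtom_trunc_iff _ _).2 ?_).cylEnd e
            rw [Table.map_truncLE]
            exact hK₀
          refine (hG l _ _ hl hatom h).trans (Eq.trans ?_ h3.symm)
          exact congrArg (fun f : nu (cyl (globe l)) ⟶ X => f.map _) (hcongr _ _ _ _ _ heq.symm)
        | mid b =>
          rename_i l
          obtain ⟨c₀, hc₀⟩ := hK.trunc.unital l b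
          have hK₀ := (isAtom_trunc_iff b c₀).1 hc₀
          have e₀ : Table.map (cellHom b.2 _ hK₀.above) (globeCell l) = c₀ :=
            (map_cellHom _ _ _).trans (Table.toTrunc_map c₀)
          obtain rfl := hc.unique hc₀.cylMid
          have h2 := congrArg (fun f : nu (cyl (globe l)) ⟶ X =>
            f.map (globeCell l).cylMid) (hE l b.1 _ b.2 hK₀)
          have h3 : E.map c₀.cylMid = _ :=
            (congrArg E.map ((Table.map_cylMap_cylMid (cellHom b.2 _ hK₀.above) _).trans
              (congrArg Table.cylMid e₀))).symm.trans h2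
          obtain heq := hK₀.unique (hat0 l b.1)
          have hatom : (cyl (K.trunc j)).IsAtom (k := l + 1) (CylB.mid (⟨b.1, le_trans b.2 hij⟩ :
              (K.trunc j).B l)) (Table.map (cylMap (K.truncLE hij)) c₀.cylMid) := by
            rw [Table.map_cylMap_cylMid]
            refine ((isAtom_trunc_iff _ _).2 ?_).cylMid
            rw [Table.map_truncLE]
            exact hK₀
          refine (hG (l + 1) _ _ hl hatom h).trans (Eq.trans ?_ h3.symm)
          exact congrArg (fun f : nu (cyl (globe l)) ⟶ X => f.map _) (hcongr _ _ _ _ _ heq.symm)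
      have hfc : cellHom le_rfl ((ac a).face i s) (le_face _ i s) ≫ K.truncLE hij =
          globeFace a.1 i s ≫ cellHom a.2.2 (ac a) (hac a).above := by
        refine globe_hom_ext (Table.map_truncIncl_injective ?_)
        refine ((Table.map_truncLE hij _).trans (cellHom_cell_incl le_rfl _ _)).trans (Eq.symm ?_)
        rw [globeFace_comp, Table.map_face]
        exact congrArg (fun c => Table.face c i s) (cellHom_cell_incl a.2.2 _ _)
      have key : Table.map (φ a) (Table.map (cylMap (globeFace a.1 i s)) x) =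
          Table.map (cylMap (K.truncLE hij))
            (Table.map (cylMap (cellHom le_rfl ((ac a).face i s) (le_face _ i s))) x) :=
        ((map_cylMap_comp _ _ x).symm.trans
          (congrArg (fun f => Table.map (cylMap f) x) hfc.symm)).trans (map_cylMap_comp _ _ x)
      have h1 := hag.eq_on_skel hU hK.trunc.cyl
        (Table.map (cylMap (cellHom le_rfl ((ac a).face i s) (le_face _ i s))) x)
        (Table.map_above _ x hx)
      simp only [key]
      rw [h1]
      exact (congrArg (fun f : nu (cyl (globe i)) ⟶ X => f.map x)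
        ((hS i E hE _ _).trans (hF a.1 (ac a) (hac a).above i hi s).symm))
    intro l y c hl hc h
    cases y with
    | ends e q =>
      obtain ⟨s, hs⟩ := q
      rcases hs with hi | ⟨rfl, rfl⟩
      · obtain rfl := hc.unique ((isAtom_globe (⟨s, Or.inl hi⟩ : GlobeB a.1 l)).cylEnd e)
        have e₁ : Table.map (cylEnd e _) ((globeCell a.1).face l s) =
            Table.map (cylMap (globeFace a.1 l s)) (Table.map (cylEnd e _) (globeCell l)) := by
          rw [Table.map_cylMap_cylEnd, globeFace_cell]
        simp only [e₁]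
        exact lower l hi s _ ((((isAtom_globe_top l).cylEnd e).above) |> fun h => Le.mono h hl)
      · obtain rfl := hc.unique ((isAtom_globe_top a.1).cylEnd e)
        exact hG _ _ _ hl (himgE a e) h
    | mid q =>
      rename_i l
      obtain ⟨s, hs⟩ := q
      rcases hs with hi | ⟨rfl, rfl⟩
      · obtain rfl := hc.unique ((isAtom_globe (⟨s, Or.inl hi⟩ : GlobeB a.1 l)).cylMid)
        have e₁ : ((globeCell a.1).face l s).cylMid =
            Table.map (cylMap (globeFace a.1 l s)) (globeCell l).cylMid := by
          rw [Table.map_cylMap_cylMid, globeFace_cell]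
        simp only [e₁]
        exact lower l hi s _ (Le.mono (isAtom_globe_top l).cylMid.above hl)
      · obtain rfl := hc.unique ((isAtom_globe_top a.1).cylMid)
        exact hG _ _ _ hl (himgM a) h
  obtain ⟨G, hG⟩ := exists_of_charts (C := cyl (K.trunc j)) (D := fun a : A => cyl (globe a.1))
    hU hX hK.trunc.cyl (fun a => (globe_isSteiner a.1).cyl) φ H v hv cover
    (fun _ _ _ _ h h' => h.unique h') compat
  refine ⟨G, fun l b c hl hc => ?_⟩
  obtain rfl := hc.unique (hat0 l b)
  exact hG ⟨l, ⟨b, hl⟩⟩

/-- A compatible family extends to `ν (K ⊗ I)`. -/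
theorem exists_cylExt (hU : FreeUniqueGoal) (hX : FreeExtendGoal) (hK : K.IsSteiner)
    (hF : FaceCompat P) (hS : Spreads P) :
    ∃ E : nu (cyl K) ⟶ X, ∀ (l : ℕ) (c : Table K) (hc : Le l c),
      nuFunctor.map (cylMap (globeHom l c hc)) ≫ E = P l c hc := by
  obtain ⟨N, hN⟩ := exists_trunc_inverse hK
  obtain ⟨E, hE⟩ := exists_atomRestr P hU hX hK hF hS N
  have key : ∀ {M : ADC} (f : M ⟶ K) (g : M ⟶ K.trunc N), g ≫ K.truncIncl N = f →
      f ≫ K.truncProj N hN = g := by
    rintro M f g rfl
    refine Hom.ext (funext fun l => LinearMap.ext fun x => ?_)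
    exact truncOut_in _
  refine ⟨nuFunctor.map (cylMap (K.truncProj N hN)) ≫ E, fun l c hc => ?_⟩
  have hA : AtomRestr P l (nuFunctor.map (cylMap (K.truncIncl l ≫ K.truncProj N hN)) ≫ E) := by
    intro m b d hm hd
    have hmN : m ≤ N := by
      by_contra h
      exact (hN m (by omega)).false b
    refine (nuCylMap_comp _ _ E).symm.trans (Eq.trans ?_ (hE m b d hmN hd))
    refine congrArg (fun f => nuFunctor.map (cylMap f) ≫ E) ?_
    exact ((Category.assoc _ _ _).symm.trans
      (congrArg (fun f => f ≫ K.truncProj N hN) (cellHom_incl hm d hd.above))).trans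
      (key _ _ (cellHom_incl hmN d hd.above))
  have h1 := hS l _ hA c hc
  refine Eq.trans ?_ h1
  refine (nuCylMap_comp _ _ E).symm.trans (Eq.trans ?_ (nuCylMap_comp _ _ E))
  have e : globeHom l c hc ≫ K.truncProj N hN =
      cellHom le_rfl c hc ≫ K.truncIncl l ≫ K.truncProj N hN := by
    rw [← Category.assoc, cellHom_incl]
  exact congrArg (fun f : globe l ⟶ K.trunc N => nuFunctor.map (cylMap f) ≫ E) e

/-- Functors out of `ν (K ⊗ I)` agreeing along all atoms of `K` are equal. -/
theorem cylExt_unique (hU : FreeUniqueGoal) (hK : K.IsSteiner) {E E' : nu (cyl K) ⟶ X}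
    (h : ∀ (l : ℕ) (b : K.B l) (c : Table K) (hc : K.IsAtom b c),
      nuFunctor.map (cylMap (globeHom l c hc.above)) ≫ E =
        nuFunctor.map (cylMap (globeHom l c hc.above)) ≫ E') : E = E' := by
  refine hU _ hK.cyl X E E' fun l y d hd => ?_
  cases y with
  | ends e b =>
    obtain ⟨c, hc⟩ := hK.unital l b
    obtain rfl := hd.unique (hc.cylEnd e)
    have h₁ := congrArg (fun f : nu (cyl (globe l)) ⟶ X =>
      f.map (Table.map (cylEnd e (globe l)) (globeCell l))) (h l b c hc)
    have e₁ : Table.map (cylMap (globeHom l c hc.above)) (Table.map (cylEnd e _) (globeCell l)) =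
        Table.map (cylEnd e K) c := by
      rw [Table.map_cylMap_cylEnd, globeHom_cell]
    rw [← e₁]
    exact h₁
  | mid b =>
    rename_i l
    obtain ⟨c, hc⟩ := hK.unital l b
    obtain rfl := hd.unique hc.cylMid
    have h₁ := congrArg (fun f : nu (cyl (globe l)) ⟶ X => f.map (globeCell l).cylMid) (h l b c hc)
    have e₁ : Table.map (cylMap (globeHom l c hc.above)) (globeCell l).cylMid = c.cylMid := by
      rw [Table.map_cylMap_cylMid, globeHom_cell]
    rw [← e₁]
    exact h₁

end

end Vale.Agent.P213.ADC
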