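import Vale.Agent.P213.Cyl.PushExt

/-!
# Faces of the cells of the cylinder
-/

open CategoryTheory

namespace Vale.Agent.P213.ADC

noncomputable section

namespace CylCell

variable {X Y : OCat}

lemma face_face_ite (F : CylCell X) (i j : ℕ) (e e' : Bool) :
    (F.face j e').face i e = if i < j then F.face i e else F.face j e' := by
  refine CylCell.ext ?_
  show pre (endo i e) ≫ pre (endo j e') ≫ F.hom = _
  rw [pre_pre, endo_endo]
  split_ifs <;> rfl

lemma DimAt.face_eq {N : ℕ} {F : CylCell X} (h : F.DimAt N) {k : ℕ} (hk : N ≤ k) (e : Bool) :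
    F.face k e = F := by
  refine CylCell.ext ?_
  show pre (endo k e) ≫ F.hom = F.hom
  conv_lhs => rw [← h]
  rw [pre_pre, endo_endo, if_neg (by omega)]
  exact h

lemma dimAt_face (F : CylCell X) (i : ℕ) (e : Bool) : (F.face i e).DimAt i := by
  show pre (endo i false) ≫ pre (endo i e) ≫ F.hom = pre (endo i e) ≫ F.hom
  rw [pre_pre, endo_endo, if_neg (lt_irrefl i)]

lemma dimAt_of_face_eq {F : CylCell X} {k : ℕ} (h : F.face k false = F) : F.DimAt k :=
  congrArg CylCell.hom h

lemma exists_dimAt (F : CylCell X) : ∃ N, F.DimAt N := F.dim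

lemma map_face (f : X ⟶ Y) (F : CylCell X) (i : ℕ) (e : Bool) :
    (F.face i e).map f = (F.map f).face i e :=
  CylCell.ext (Category.assoc _ _ _)

lemma DimAt.map {N : ℕ} {F : CylCell X} (h : F.DimAt N) (f : X ⟶ Y) : (F.map f).DimAt N := by
  show pre (endo N false) ≫ F.hom ≫ f = F.hom ≫ f
  rw [← Category.assoc, h]

end CylCell

lemma Table.face_face_ite {K : ADC} (a : Table K) (i j : ℕ) (e e' : Bool) :
    (a.face j e').face i e = if i < j then a.face i e else a.face j e' := by
  refine Table.ext (funext fun k => funext fun s => ?_)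
  simp only [Table.face_x]
  split_ifs <;> simp only [Table.face_x] <;> split_ifs <;> first | rfl | omega

lemma Table.exists_le {K : ADC} (a : Table K) : ∃ N, ∀ l s, N < l → a.x l s = 0 :=
  let ⟨N, hN⟩ := a.exists_zero
  ⟨N, fun l s h => hN l s h.le⟩

end

end Vale.Agent.P213.ADC
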