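import Vale.Agent.P213.Cyl.Reps

/-!
# The cylinder `Γ : OCat ⥤ OCat`
-/

open CategoryTheory

namespace Vale.Agent.P213.ADC

noncomputable section

variable {X Y : OCat} {K : ADC}

namespace CylCell

/-- The composite of two cells of the cylinder. -/
def comp (hE : FreeExtendGoal) (i : ℕ) (a b : CylCell X) (h : a.face i false = b.face i true) :
    CylCell X :=
  Classical.choose (exists_comp hE i a b h)

lemma comp_push (hE : FreeExtendGoal) (hK : K.IsSteiner) {i : ℕ} {a b : CylCell X}
    (h : a.face i false = b.face i true) {u v : Table K} (huv : u.face i false = v.face i true)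
    {Φ : nu (cyl K) ⟶ X} (hu : push u Φ = a) (hv : push v Φ = b) :
    comp hE i a b h = push (Table.comp i u v huv) Φ :=
  Classical.choose_spec (exists_comp hE i a b h) K hK u v huv Φ hu hv

end CylCell

open CylCell

/-- The cylinder of an ω-category. -/
def gammaObj (hE : FreeExtendGoal) (X : OCat) : OCat where
  Cell := CylCell X
  src i F := F.face i false
  tgt i F := F.face i true
  comp := CylCell.comp hE
  src_src i j F := by
    rw [face_face_ite]; split_ifs with h
    · rw [min_eq_left h.le]
    · rw [min_eq_right (not_lt.1 h)]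
  tgt_tgt i j F := by
    rw [face_face_ite]; split_ifs with h
    · rw [min_eq_left h.le]
    · rw [min_eq_right (not_lt.1 h)]
  src_tgt_lt i j F h := by rw [face_face_ite, if_pos h]
  src_tgt_ge i j F h := by rw [face_face_ite, if_neg (by omega)]
  tgt_src_lt i j F h := by rw [face_face_ite, if_pos h]
  tgt_src_ge i j F h := by rw [face_face_ite, if_neg (by omega)]
  exists_dim F := F.dim.imp fun N hN => DimAt.face_eq hN le_rfl false
  comp_unit_right i a h := by
    obtain ⟨N, Φ, rfl⟩ := a.exists_push
    rw [comp_push hE (globe_isSteiner N) h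
      ((nu (globe N)).tgt_src_ge i i (globeCell N) le_rfl).symm rfl (push_face _ _ _ _).symm]
    exact congrArg (push · Φ) ((nu (globe N)).comp_unit_right i (globeCell N)
      ((nu (globe N)).tgt_src_ge i i (globeCell N) le_rfl).symm)
  comp_unit_left i a h := by
    obtain ⟨N, Φ, rfl⟩ := a.exists_push
    rw [comp_push hE (globe_isSteiner N) h
      ((nu (globe N)).src_tgt_ge i i (globeCell N) le_rfl) (push_face _ _ _ _).symm rfl]
    exact congrArg (push · Φ) ((nu (globe N)).comp_unit_left i (globeCell N)
      ((nu (globe N)).src_tgt_ge i i (globeCell N) le_rfl))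
  src_comp_le i j a b h hj := by
    obtain ⟨K, hK, u, v, huv, Φ, rfl, rfl⟩ := exists_rep hE i a b h
    rw [comp_push hE hK h huv rfl rfl, push_face, push_face]
    exact congrArg (push · Φ) ((nu K).src_comp_le i j u v huv hj)
  tgt_comp_le i j a b h hj := by
    obtain ⟨K, hK, u, v, huv, Φ, rfl, rfl⟩ := exists_rep hE i a b h
    rw [comp_push hE hK h huv rfl rfl, push_face, push_face]
    exact congrArg (push · Φ) ((nu K).tgt_comp_le i j u v huv hj)
  src_comp_gt i j a b h h' hj := by
    obtain ⟨K, hK, u, v, huv, Φ, rfl, rfl⟩ := exists_rep hE i a b h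
    have huv' : (u.face j false).face i false = (v.face j false).face i true := by
      rw [Table.face_face_ite, if_pos hj, Table.face_face_ite, if_pos hj, huv]
    rw [comp_push hE hK h huv rfl rfl,
      comp_push hE hK h' huv' (push_face _ _ _ _).symm (push_face _ _ _ _).symm, push_face]
    exact congrArg (push · Φ) ((nu K).src_comp_gt i j u v huv huv' hj)
  tgt_comp_gt i j a b h h' hj := by
    obtain ⟨K, hK, u, v, huv, Φ, rfl, rfl⟩ := exists_rep hE i a b h
    have huv' : (u.face j true).face i false = (v.face j true).face i true := by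
      rw [Table.face_face_ite, if_pos hj, Table.face_face_ite, if_pos hj, huv]
    rw [comp_push hE hK h huv rfl rfl,
      comp_push hE hK h' huv' (push_face _ _ _ _).symm (push_face _ _ _ _).symm, push_face]
    exact congrArg (push · Φ) ((nu K).tgt_comp_gt i j u v huv huv' hj)
  assoc i a b c h₁ h₂ h₃ h₄ := by
    obtain ⟨K, hK, u, v, w, huv, hvw, Φ, rfl, rfl, rfl⟩ := exists_rep₃ hE i a b c h₁ h₃
    have g₂ : (Table.comp i u v huv).face i false = w.face i true :=
      ((nu K).src_comp_le i i u v huv le_rfl).trans hvw
    have g₄ : u.face i false = (Table.comp i v w hvw).face i true :=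
      huv.trans ((nu K).tgt_comp_le i i v w hvw le_rfl).symm
    rw [comp_push hE hK h₂ g₂ (comp_push hE hK h₁ huv rfl rfl).symm rfl,
      comp_push hE hK h₄ g₄ rfl (comp_push hE hK h₃ hvw rfl rfl).symm]
    exact congrArg (push · Φ) ((nu K).assoc i u v w huv g₂ hvw g₄)
  interchange i j a b c d h₁ h₂ h₃ h₄ h₅ h₆ hij := by
    obtain ⟨K, hK, u, v, w, z, huv, hwz, huw, hvz, Φ, rfl, rfl, rfl, rfl⟩ :=
      exists_rep₄ hE hij a b c d h₁ h₂ h₄ h₅
    have g₃ : (Table.comp j u v huv).face i false = (Table.comp j w z hwz).face i true :=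
      by
      have ez : z.face i true = w.face i true := by
        have e₁ := congrArg (fun t : Table K => t.face i true) hwz
        rw [Table.face_face_ite, if_pos hij, Table.face_face_ite, if_pos hij] at e₁
        exact e₁.symm
      exact (((nu K).src_comp_le j i u v huv hij.le).trans (hvz.trans ez)).trans
        ((nu K).tgt_comp_le j i w z hwz hij.le).symm
    have g₆ : (Table.comp i u w huw).face j false = (Table.comp i v z hvz).face j true := by
      have e₁ : (u.face j false).face i false = (w.face j false).face i true := by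
        rw [Table.face_face_ite, if_pos hij, Table.face_face_ite, if_pos hij, huw]
      have e₂ : (v.face j true).face i false = (z.face j true).face i true := by
        rw [Table.face_face_ite, if_pos hij, Table.face_face_ite, if_pos hij, hvz]
      refine ((nu K).src_comp_gt i j u w huw e₁ hij).trans ?_
      refine Eq.trans ?_ ((nu K).tgt_comp_gt i j v z hvz e₂ hij).symm
      simp only [show (nu K).src j u = (nu K).tgt j v from huv,
        show (nu K).src j w = (nu K).tgt j z from hwz]
    rw [comp_push hE hK h₃ g₃ (comp_push hE hK h₁ huv rfl rfl).symm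
        (comp_push hE hK h₂ hwz rfl rfl).symm,
      comp_push hE hK h₆ g₆ (comp_push hE hK h₄ huw rfl rfl).symm
        (comp_push hE hK h₅ hvz rfl rfl).symm]
    exact congrArg (push · Φ) ((nu K).interchange i j u v w z huv hwz g₃ huw hvz g₆ hij)

/-- The functor `ν K ⟶ Γ X` of a functor `ν (K ⊗ I) ⟶ X`. -/
def pushHom (hE : FreeExtendGoal) (hK : K.IsSteiner) (Φ : nu (cyl K) ⟶ X) :
    nu K ⟶ gammaObj hE X where
  map a := push a Φ
  map_src i a := (push_face a Φ i false).symm
  map_tgt i a := (push_face a Φ i true).symm
  map_comp _ _ _ h h' := (comp_push hE hK h' h rfl rfl).symm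

/-- The action of `Γ` on functors. -/
def gammaMap (hE : FreeExtendGoal) (f : X ⟶ Y) : gammaObj hE X ⟶ gammaObj hE Y where
  map F := F.map f
  map_src i F := CylCell.map_face f F i false
  map_tgt i F := CylCell.map_face f F i true
  map_comp i a b h h' := by
    obtain ⟨K, hK, u, v, huv, Φ, rfl, rfl⟩ := exists_rep hE i a b h
    show (comp hE i _ _ h).map f = comp hE i _ _ h'
    rw [comp_push hE hK h huv rfl rfl, map_push,
      comp_push hE hK h' huv (map_push _ _ _).symm (map_push _ _ _).symm]

/-- The functor cylinder. -/
def gamma (hE : FreeExtendGoal) : OCat ⥤ OCat where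
  obj := gammaObj hE
  map := gammaMap hE
  map_id _ := OCat.hom_ext fun F => CylCell.ext (Category.comp_id F.hom)
  map_comp f g := OCat.hom_ext fun F => CylCell.ext (Category.assoc F.hom f g).symm

end

end Vale.Agent.P213.ADC
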