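import Vale.Agent.P213.Cyl.ShapeGlue

/-!
# Pastes of globes

A paste of `m × p` copies of the `n`-globe, glued along level `i` in the first coordinate and along
level `j` in the second: a finite ranked shape with these copies as its tops, satisfying the gluing
equations and universal among families of cells satisfying them.
-/

open CategoryTheory

namespace Vale.Agent.P213.ADC

noncomputable section

/-- A face operation obeys the globular law. -/
def FaceLaw {α : Type} (face : α → ℕ → Bool → α) : Prop :=
  ∀ a i j e e', face (face a j e') i e = if i < j then face a i e else face a j e'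

/-- An `m × p` paste of `n`-globes along the levels `i` and `j`. -/
structure Paste (n i j m p : ℕ) where
  S : GShape
  finite : Finite (Σ k, S.B k)
  rank : ∀ k, S.B k → ℤ
  ranked : S.Ranked rank
  empty : ∀ k, n < k → IsEmpty (S.B k)
  top : ℕ → ℕ → S.B n
  cover : ∀ k, k < n → ∀ x : S.B k, ∃ (y : S.B (k + 1)) (e : Bool), S.side k e y = x
  top_surj : ∀ x : S.B n, ∃ c r, c < m ∧ r < p ∧ x = top c r
  glue_fst : ∀ c r, c + 1 < m → r < p →
    (S.cell (top c r)).face i true = (S.cell (top (c + 1) r)).face i false
  glue_snd : ∀ c r, c < m → r + 1 < p →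
    (S.cell (top c r)).face j true = (S.cell (top c (r + 1))).face j false
  family : ∀ {α : Type} (face : α → ℕ → Bool → α), FaceLaw face → ∀ A : ℕ → ℕ → α,
    (∀ c r e, c < m → r < p → face (A c r) n e = A c r) →
    (∀ c r, c + 1 < m → r < p → face (A c r) i true = face (A (c + 1) r) i false) →
    (∀ c r, c < m → r + 1 < p → face (A c r) j true = face (A c (r + 1)) j false) →
    ∃ T : ∀ k, S.B k → α, (∀ k x e, face (T k x) k e = T k x) ∧
      (∀ k e (x : S.B (k + 1)), face (T (k + 1) x) k e = T k (S.side k e x)) ∧
      ∀ c r, c < m → r < p → T n (top c r) = A c r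

end

end Vale.Agent.P213.ADC
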