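import Mathlib.Data.Fintype.Prod
import Mathlib.Data.Fintype.Sigma
import Mathlib.Tactic.Ring
import Mathlib.Tactic.Linarith
import Vale.Agent.P213.Cyl.Paste

/-!
# The grid of `m × p` globes pasted along two levels

The cells of the grid of `n`-globes pasted `m`-fold along level `i` and `p`-fold along level `j`
(`i < j`; the one-parameter case is `p = 1`, `j > n`): positions `c`, `r` in the two directions and
a side `s`, all normalised so that each cell has one name.  The shape is finite and ranked, and
cells with a grid of composable `n`-dimensional faces give a family on it.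
-/

namespace Vale.Agent.P213.ADC

noncomputable section

/-- The valid names of cells of degree `k`. -/
def GridOK (n i j m p k : ℕ) (x : ℕ × ℕ × Bool) : Prop :=
  k ≤ n ∧ (k < i → x.1 = 0) ∧ (k = i → x.1 ≤ m) ∧ (i < k → x.1 < m) ∧
    (k < j → x.2.1 = 0) ∧ (k = j → x.2.1 ≤ p) ∧ (j < k → x.2.1 < p) ∧
    ((k = i ∨ k = j ∨ k = n) → x.2.2 = false)

/-- The name of a side. -/
def gridSide (i j k : ℕ) (e : Bool) (x : ℕ × ℕ × Bool) : ℕ × ℕ × Bool :=
  (if k < i then 0 else x.1 + (if k = i ∧ e = true then 1 else 0),
    if k < j then 0 else x.2.1 + (if k = j ∧ e = true then 1 else 0),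
    if k = i ∨ k = j then false else e)

theorem gridSide_ok {n i j m p k : ℕ} (e : Bool) {x : ℕ × ℕ × Bool}
    (h : GridOK n i j m p (k + 1) x) : GridOK n i j m p k (gridSide i j k e x) := by
  obtain ⟨h0, -, -, h3, -, -, h6, -⟩ := h
  refine ⟨by omega, fun hk => if_pos hk, fun hk => ?_, fun hk => ?_, fun hk => if_pos hk,
    fun hk => ?_, fun hk => ?_, fun hk => ?_⟩
  · have := h3 (by omega)
    simp only [gridSide]
    split_ifs <;> omega
  · have := h3 (by omega)
    simp only [gridSide]
    rw [if_neg (show ¬k < i by omega), if_neg (fun hc => absurd hc.1 hk.ne')]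
    omega
  · have := h6 (by omega)
    simp only [gridSide]
    split_ifs <;> omega
  · have := h6 (by omega)
    simp only [gridSide]
    rw [if_neg (show ¬k < j by omega), if_neg (fun hc => absurd hc.1 hk.ne')]
    omega
  · rcases hk with hk | hk | hk
    · exact if_pos (Or.inl hk)
    · exact if_pos (Or.inr hk)
    · omega

theorem gridSide_gridSide (i j k : ℕ) (e e' e'' : Bool) (x : ℕ × ℕ × Bool) :
    gridSide i j k e (gridSide i j (k + 1) e' x) = gridSide i j k e (gridSide i j (k + 1) e'' x) := by
  simp only [gridSide]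
  refine Prod.ext ?_ (Prod.ext ?_ rfl)
  · show (if k < i then 0 else _) = (if k < i then 0 else _)
    by_cases hk : k < i
    · simp only [if_pos hk]
    · simp only [if_neg hk, if_neg (show ¬k + 1 < i by omega),
        show ¬(k + 1 = i) by omega, false_and, if_false]
  · show (if k < j then 0 else _) = (if k < j then 0 else _)
    by_cases hk : k < j
    · simp only [if_pos hk]
    · simp only [if_neg hk, if_neg (show ¬k + 1 < j by omega),
        show ¬(k + 1 = j) by omega, false_and, if_false]

/-- The grid. -/
@[reducible] def grid (n i j m p : ℕ) : GShape where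
  B k := { x : ℕ × ℕ × Bool // GridOK n i j m p k x }
  side k e x := ⟨gridSide i j k e x.1, gridSide_ok e x.2⟩
  globular k e e' e'' x := Subtype.ext (gridSide_gridSide i j k e e' e'' x.1)

variable {n i j m p : ℕ}

theorem gridOK_bound {k : ℕ} {x : ℕ × ℕ × Bool} (h : GridOK n i j m p k x) :
    k < n + 1 ∧ x.1 < m + 1 ∧ x.2.1 < p + 1 := by
  obtain ⟨h0, h1, h2, h3, h4, h5, h6, -⟩ := h
  refine ⟨by omega, ?_, ?_⟩
  · rcases lt_trichotomy k i with hk | hk | hk
    · have := h1 hk; omega
    · have := h2 hk; omega
    · have := h3 hk; omega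
  · rcases lt_trichotomy k j with hk | hk | hk
    · have := h4 hk; omega
    · have := h5 hk; omega
    · have := h6 hk; omega

theorem finite_grid (n i j m p : ℕ) : Finite (Σ k, (grid n i j m p).B k) := by
  refine Finite.of_injective
    (β := Fin (n + 1) × Fin (m + 1) × Fin (p + 1) × Bool)
    (fun x => (⟨x.1, (gridOK_bound x.2.2).1⟩, ⟨x.2.1.1, (gridOK_bound x.2.2).2.1⟩,
      ⟨x.2.1.2.1, (gridOK_bound x.2.2).2.2⟩, x.2.1.2.2)) ?_
  rintro ⟨k, ⟨⟨c, r, s⟩, hx⟩⟩ ⟨k', ⟨⟨c', r', s'⟩, hy⟩⟩ h
  simp only [Prod.mk.injEq, Fin.mk.injEq] at h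
  obtain ⟨rfl, rfl, rfl, rfl⟩ := h
  rfl

/-- The rank digit of a level below the degree. -/
def midDigit (i j : ℕ) (x : ℕ × ℕ × Bool) (l : ℕ) : ℕ :=
  if l = i then 2 * x.1 + 1 else if l = j then 2 * x.2.1 + 1 else 1

/-- The rank digit of the degree. -/
def ownDigit (i j k : ℕ) (x : ℕ × ℕ × Bool) : ℕ :=
  if k = i then 2 * x.1 else if k = j then 2 * x.2.1 else if x.2.2 then 2 else 0

/-- The rank, lexicographic in the levels. -/
def gridRank (n i j m p k : ℕ) (x : ℕ × ℕ × Bool) : ℕ :=
  ∑ l ∈ Finset.range k, midDigit i j x l * (2 * m + 2 * p + 3) ^ (n - l) +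
    ownDigit i j k x * (2 * m + 2 * p + 3) ^ (n - k)

theorem ranked_grid (n i j m p : ℕ) :
    ∃ r : ∀ k, (grid n i j m p).B k → ℤ, (grid n i j m p).Ranked r := by
  refine ⟨fun k x => (gridRank n i j m p k x.1 : ℤ), fun k x => ?_⟩
  obtain ⟨⟨c, r, s⟩, hx⟩ := x
  obtain ⟨hb, hc, hr⟩ := gridOK_bound hx
  simp only at hc hr
  set w := 2 * m + 2 * p + 3 with hw
  set P := ∑ l ∈ Finset.range k, midDigit i j (c, r, s) l * w ^ (n - l) with hP
  have hsum : ∀ e, ∑ l ∈ Finset.range k, midDigit i j (gridSide i j k e (c, r, s)) l * w ^ (n - l)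
      = P := fun e => by
    refine Finset.sum_congr rfl fun l hl => ?_
    have hlk := Finset.mem_range.1 hl
    congr 1
    simp only [midDigit, gridSide]
    split_ifs <;> omega
  have hown : ownDigit i j k (gridSide i j k false (c, r, s)) + 1 = midDigit i j (c, r, s) k ∧
      midDigit i j (c, r, s) k + 1 = ownDigit i j k (gridSide i j k true (c, r, s)) := by
    simp only [midDigit, ownDigit, gridSide]
    by_cases hi : k = i
    · subst hi; simp; omega
    · by_cases hj : k = j
      · subst hj; simp [hi]; omega
      · simp [hi, hj]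
  have hd : ownDigit i j (k + 1) (c, r, s) < w := by
    simp only [ownDigit]
    split_ifs <;> omega
  have hw1 : w ^ (n - k) = w * w ^ (n - (k + 1)) := by
    rw [← pow_succ']; congr 1; omega
  have hwpos : 0 < w ^ (n - (k + 1)) := Nat.pow_pos (by omega)
  constructor <;>
  · simp only [gridRank, ← hw, hsum, Finset.sum_range_succ, ← hP, Nat.cast_lt]
    obtain ⟨h1, h2⟩ := hown
    rw [hw1]
    simp only [← h2, ← h1]
    have := Nat.mul_lt_mul_of_pos_right hd hwpos
    simp only [Nat.add_mul, Nat.one_mul] at this ⊢
    omega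

/-- The member on top in column `c` and row `r`. -/
def gridTop (hin : i < n) (hj : j < n ∨ p = 1 ∧ n < j) {c r : ℕ} (hc : c < m) (hr : r < p) :
    (grid n i j m p).B n :=
  ⟨(c, r, false), le_rfl, fun h => absurd h (by omega), fun _ => hc.le, fun _ => hc,
    fun h => show r = 0 by omega, fun _ => hr.le, fun _ => hr, fun _ => rfl⟩

/-- Every member of degree `n` is on top. -/
theorem exists_gridTop (hin : i < n) (hj : j < n ∨ p = 1 ∧ n < j) (x : (grid n i j m p).B n) :
    ∃ (c r : ℕ) (hc : c < m) (hr : r < p), x = gridTop hin hj hc hr := by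
  obtain ⟨⟨c, r, s⟩, h0, -, -, h3, h4, -, h6, h7⟩ := x
  have hr : r < p := by
    rcases hj with hj | ⟨hp, hj⟩
    · exact h6 hj
    · have : r = 0 := h4 hj
      omega
  exact ⟨c, r, h3 hin, hr, Subtype.ext (by simp [gridTop, show s = false from h7 (by simp)])⟩

/-- Every member below degree `n` is a side. -/
theorem exists_gridSide (hij : i < j) (hm : 0 < m) (hp : 0 < p) {k : ℕ} (hk : k < n)
    (x : (grid n i j m p).B k) : ∃ e y, (grid n i j m p).side k e y = x := by
  obtain ⟨⟨c, r, s⟩, h0, h1, h2, h3, h4, h5, h6, h7⟩ := x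
  simp only at h1 h2 h3 h4 h5 h6 h7
  rcases eq_or_ne k i with rfl | hki
  · have hs := h7 (Or.inl rfl)
    have hr := h4 hij
    have hc := h2 rfl
    by_cases hcm : c = m
    · exact ⟨true, ⟨(c - 1, 0, false), hk, by omega, by omega, fun _ => by show c - 1 < m; omega,
        fun _ => rfl, fun _ => Nat.zero_le _, fun _ => hp, fun _ => rfl⟩,
        Subtype.ext (by simp [gridSide, hij, hij.ne, hs, hr]; omega)⟩
    · exact ⟨false, ⟨(c, 0, false), hk, by omega, by omega, fun _ => by show c < m; omega,
        fun _ => rfl, fun _ => Nat.zero_le _, fun _ => hp, fun _ => rfl⟩,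
        Subtype.ext (by simp [gridSide, hij, hij.ne, hs, hr])⟩
  rcases eq_or_ne k j with rfl | hkj
  · have hs := h7 (Or.inr (Or.inl rfl))
    have hc := h3 hij
    have hr := h5 rfl
    by_cases hrp : r = p
    · exact ⟨true, ⟨(c, r - 1, false), hk, by omega, by omega, fun _ => hc,
        by omega, by omega, fun _ => by show r - 1 < p; omega, fun _ => rfl⟩,
        Subtype.ext (by simp [gridSide, hij.not_gt, hij.ne', hs]; omega)⟩
    · exact ⟨false, ⟨(c, r, false), hk, by omega, by omega, fun _ => hc,
        by omega, by omega, fun _ => by show r < p; omega, fun _ => rfl⟩,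
        Subtype.ext (by simp [gridSide, hij.not_gt, hij.ne', hs])⟩
  refine ⟨s, ⟨(c, r, false), hk, fun h => h1 (by omega), fun h => ?_, fun h => h3 (by omega),
    fun h => h4 (by omega), fun h => ?_, fun h => h6 (by omega), fun _ => rfl⟩, Subtype.ext ?_⟩
  · have : c = 0 := h1 (by omega)
    show c ≤ m
    omega
  · have : r = 0 := h4 (by omega)
    show r ≤ p
    omega
  · simp [gridSide, hki, hkj]
    exact ⟨fun h => (h1 h).symm, fun h => (h4 h).symm⟩

/-- A grid of composable cells gives a family on the grid. -/
theorem exists_gridFamily {α : Type*} (face : α → ℕ → Bool → α)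
    (hface : ∀ (a : α) (k l : ℕ) (e e' : Bool),
      face (face a l e') k e = if k < l then face a k e else face a l e')
    (hij : i < j) (hin : i < n) (hj : j < n ∨ p = 1 ∧ n < j) (hm : 0 < m) (hp : 0 < p)
    (A : ℕ → ℕ → α) (hA : ∀ c r e, c < m → r < p → face (A c r) n e = A c r)
    (hi : ∀ c r, c + 1 < m → r < p → face (A c r) i true = face (A (c + 1) r) i false)
    (hr : ∀ c r, c < m → r + 1 < p → face (A c r) j true = face (A c (r + 1)) j false) :
    ∃ T : ∀ k, (grid n i j m p).B k → α,
      (∀ k x e, face (T k x) k e = T k x) ∧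
      (∀ k e (y : (grid n i j m p).B (k + 1)),
        face (T (k + 1) y) k e = T k ((grid n i j m p).side k e y)) ∧
      ∀ c r (hc : c < m) (hr : r < p), T n (gridTop hin hj hc hr) = A c r := by
  -- below `i` the column does not matter, below `j` the row does not
  have Li : ∀ k e r, k < i → r < p → ∀ c, c < m → face (A c r) k e = face (A 0 r) k e := by
    intro k e r hk hr' c
    induction c with
    | zero => exact fun _ => rfl
    | succ c ih =>
      intro hc
      rw [← ih (by omega)]
      have h1 := hface (A c r) k i e true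
      have h2 := hface (A (c + 1) r) k i e false
      rw [if_pos hk] at h1 h2
      rw [← h1, ← h2, hi c r hc hr']
  have Lj : ∀ k e c, k < j → c < m → ∀ r, r < p → face (A c r) k e = face (A c 0) k e := by
    intro k e c hk hc r
    induction r with
    | zero => exact fun _ => rfl
    | succ r ih =>
      intro hr'
      rw [← ih (by omega)]
      have h1 := hface (A c r) k j e true
      have h2 := hface (A c (r + 1)) k j e false
      rw [if_pos hk] at h1 h2
      rw [← h1, ← h2, hr c r hc hr']
  refine ⟨fun k x => face (A (min x.1.1 (m - 1)) (min x.1.2.1 (p - 1))) k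
    (if k = i then decide (x.1.1 = m) else if k = j then decide (x.1.2.1 = p) else x.1.2.2),
    fun k x e => by rw [hface, if_neg (lt_irrefl k)], fun k e y => ?_, fun c r hc hr' => ?_⟩
  · obtain ⟨⟨c, r, s⟩, h0, h1, h2, h3, h4, h5, h6, -⟩ := y
    obtain ⟨-, hcb, hrb⟩ := gridOK_bound (n := n) (i := i) (j := j) (m := m) (p := p) (k := k + 1)
      (x := (c, r, s)) ⟨h0, h1, h2, h3, h4, h5, h6, ‹_›⟩
    simp only at h1 h2 h3 h4 h5 h6 hcb hrb ⊢
    rw [hface, if_pos k.lt_succ_self]
    rcases lt_trichotomy k i with hk | rfl | hk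
    · simp only [gridSide, if_pos hk, if_pos (hk.trans hij), hk.ne, (hk.trans hij).ne, or_self,
        if_false, Nat.zero_min]
      rw [Lj k e _ (hk.trans hij) (by omega) _ (by omega), Li k e 0 hk hp _ (by omega)]
    · have hc := h3 k.lt_succ_self
      simp only [gridSide, lt_irrefl, if_false, if_pos hij, if_true, true_and, true_or,
        Nat.zero_min]
      cases e
      · simp only [Bool.false_eq_true, if_false, Nat.add_zero, hc.ne, decide_false]
        exact Lj k false _ hij (by omega) _ (by omega)
      · simp only [if_true, min_eq_left (show c ≤ m - 1 by omega)]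
        rw [Lj k true c hij hc _ (by omega)]
        by_cases hcm : c + 1 = m
        · simp only [hcm, decide_true, min_eq_right (Nat.sub_le m 1)]
          rw [show m - 1 = c by omega]
        · simp only [hcm, decide_false, min_eq_left (show c + 1 ≤ m - 1 by omega)]
          exact hi c 0 (by omega) hp
    · have hc := h3 (by omega)
      simp only [gridSide, if_neg (show ¬k < i by omega), hk.ne', false_and, if_false,
        Nat.add_zero, false_or]
      rcases lt_trichotomy k j with hkj | rfl | hkj
      · simp only [if_pos hkj, hkj.ne, if_false, Nat.zero_min]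
        exact Lj k e _ hkj (by omega) _ (by omega)
      · have hr' := h6 k.lt_succ_self
        simp only [lt_irrefl, if_false, if_true, true_and]
        cases e
        · simp only [Bool.false_eq_true, if_false, Nat.add_zero, hr'.ne, decide_false]
        · simp only [if_true, min_eq_left (show r ≤ p - 1 by omega)]
          by_cases hrp : r + 1 = p
          · simp only [hrp, decide_true, min_eq_right (Nat.sub_le p 1)]
            rw [show p - 1 = r by omega]
          · simp only [hrp, decide_false, min_eq_left (show r + 1 ≤ p - 1 by omega)]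
            exact hr _ r (by omega) (by omega)
      · simp only [if_neg hkj.not_gt, hkj.ne', false_and, if_false, Nat.add_zero]
  · simp only [gridTop, min_eq_left (show c ≤ m - 1 by omega),
      min_eq_left (show r ≤ p - 1 by omega)]
    exact hA c r _ hc hr'

/-- Neighbours in the column direction share their level `i`. -/
theorem grid_glue_fst : ∀ {k : ℕ} (x x' : (grid n i j m p).B k), i < j → i < k →
    x'.1 = (x.1.1 + 1, x.1.2) →
    ((grid n i j m p).cell x).face i true = ((grid n i j m p).cell x').face i false
  | 0, _, _, _, h, _ => absurd h (Nat.not_lt_zero i)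
  | k + 1, x, x', hij, hk, he => by
    rcases Nat.lt_or_eq_of_le (Nat.le_of_lt_succ hk) with h | rfl
    · rw [← Table.face_face_lt _ h true false, ← Table.face_face_lt ((grid n i j m p).cell x') h false false,
        GShape.cell_face, GShape.cell_face]
      refine grid_glue_fst _ _ hij h ?_
      show gridSide i j k false x'.1 = _
      simp [gridSide, he, h.not_gt]
    · rw [GShape.cell_face, GShape.cell_face]
      refine congrArg _ (Subtype.ext ?_)
      show gridSide i j i true x.1 = gridSide i j i false x'.1
      simp [gridSide, he, hij]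

/-- Neighbours in the row direction share their level `j`. -/
theorem grid_glue_snd : ∀ {k : ℕ} (x x' : (grid n i j m p).B k), i < j → j < k →
    x'.1 = (x.1.1, x.1.2.1 + 1, x.1.2.2) →
    ((grid n i j m p).cell x).face j true = ((grid n i j m p).cell x').face j false
  | 0, _, _, _, h, _ => absurd h (Nat.not_lt_zero j)
  | k + 1, x, x', hij, hk, he => by
    rcases Nat.lt_or_eq_of_le (Nat.le_of_lt_succ hk) with h | rfl
    · rw [← Table.face_face_lt _ h true false, ← Table.face_face_lt ((grid n i j m p).cell x') h false false,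
        GShape.cell_face, GShape.cell_face]
      refine grid_glue_snd _ _ hij h ?_
      show gridSide i j k false x'.1 = _
      simp [gridSide, he, h.not_gt]
    · rw [GShape.cell_face, GShape.cell_face]
      refine congrArg _ (Subtype.ext ?_)
      show gridSide i j j true x.1 = gridSide i j j false x'.1
      simp [gridSide, he, hij.not_gt, hij.ne']

/-- The member on top, clamped to the grid. -/
def gridTop' (hin : i < n) (hj : j < n ∨ p = 1 ∧ n < j) (hm : 0 < m) (hp : 0 < p) (c r : ℕ) :
    (grid n i j m p).B n :=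
  gridTop hin hj (c := min c (m - 1)) (r := min r (p - 1)) (by omega) (by omega)

theorem gridTop'_eq (hin : i < n) (hj : j < n ∨ p = 1 ∧ n < j) (hm : 0 < m) (hp : 0 < p)
    {c r : ℕ} (hc : c < m) (hr : r < p) : gridTop' hin hj hm hp c r = gridTop hin hj hc hr :=
  Subtype.ext (by simp [gridTop', gridTop, min_eq_left (show c ≤ m - 1 by omega),
    min_eq_left (show r ≤ p - 1 by omega)])

/-- Pastes exist. -/
theorem exists_paste {n i j m p : ℕ} (hij : i < j) (hi : i < n) (hj : j < n ∨ p = 1) (hm : 0 < m)
    (hp : 0 < p) : Nonempty (Paste n i j m p) := by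
  -- when there is a single row, its level is irrelevant and can be moved above `n`
  obtain ⟨j', hij', hj', hsame⟩ : ∃ j', i < j' ∧ (j' < n ∨ p = 1 ∧ n < j') ∧ (1 < p → j' = j) := by
    rcases hj with h | h
    · exact ⟨j, hij, Or.inl h, fun _ => rfl⟩
    · exact ⟨n + 1, by omega, Or.inr ⟨h, n.lt_succ_self⟩, by omega⟩
  obtain ⟨rank, hrank⟩ := ranked_grid n i j' m p
  refine ⟨{
    S := grid n i j' m p
    finite := finite_grid n i j' m p
    rank := rank
    ranked := hrank
    empty := fun k hk => ⟨fun x => absurd x.2.1 (by omega)⟩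
    top := gridTop' hi hj' hm hp
    cover := fun k hk x => by
      obtain ⟨e, y, h⟩ := exists_gridSide hij' hm hp hk x
      exact ⟨y, e, h⟩
    top_surj := fun x => by
      obtain ⟨c, r, hc, hr, h⟩ := exists_gridTop hi hj' x
      exact ⟨c, r, hc, hr, h.trans (gridTop'_eq hi hj' hm hp hc hr).symm⟩
    glue_fst := fun c r hc hr => ?_
    glue_snd := fun c r hc hr => ?_
    family := fun {α} face hface A hA hAi hAj => ?_ }⟩
  · rw [gridTop'_eq hi hj' hm hp (by omega : c < m) hr, gridTop'_eq hi hj' hm hp hc hr]
    exact grid_glue_fst _ _ hij' hi rfl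
  · obtain rfl := hsame (by omega)
    have hjn : j' < n := by rcases hj' with h | h <;> omega
    rw [gridTop'_eq hi hj' hm hp hc (by omega : r < p), gridTop'_eq hi hj' hm hp hc hr]
    exact grid_glue_snd _ _ hij' hjn rfl
  · obtain ⟨T, h1, h2, h3⟩ := exists_gridFamily face hface hij' hi hj' hm hp A hA hAi
      (fun c r hc hr => by
        obtain rfl := hsame (by omega)
        exact hAj c r hc hr)
    exact ⟨T, h1, h2, fun c r hc hr => by rw [gridTop'_eq hi hj' hm hp hc hr]; exact h3 c r hc hr⟩

end

end Vale.Agent.P213.ADC
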