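import Vale.Agent.P213.Cyl.Cell
import Vale.Agent.P213.Cyl.Extend
import Vale.Agent.P213.Free.Stage

/-!
# Functors out of `ν (K ⊗ I)` are determined by the cells that the atoms of `K` name
-/

open CategoryTheory

namespace Vale.Agent.P213.ADC

noncomputable section

variable {K : ADC}

lemma ι_lift {n : ℕ} (c : Table K) (hc : ∀ l s, n < l → c.x l s = 0) :
    ι n ≫ lift c = globeHom n c hc := by
  refine globe_hom_ext ?_
  show Table.map (lift c) (Table.map (ι n) (globeCell n)) = _
  rw [ι, globeHom_cell, map_gface, Table.face_eq_self hc, globeHom_cell]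

lemma ι_endo {l i : ℕ} (hi : i < l) (s : Bool) : ι i ≫ endo i s = globeFace l i s ≫ ι l := by
  refine globe_hom_ext ?_
  show Table.map (endo i s) (Table.map (ι i) (globeCell i)) =
    Table.map (ι l) (Table.map (globeFace l i s) (globeCell i))
  rw [globeFace_cell, Table.map_face, ι, ι, globeHom_cell, globeHom_cell, endo, map_gface,
    gface_face, gface_face, if_neg (lt_irrefl i), if_pos hi]

namespace CylCell

variable {X : OCat}

lemma toGlobe_face (F : CylCell X) {l i : ℕ} (hi : i < l) (s : Bool) :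
    (F.face i s).toGlobe i = pre (globeFace l i s) ≫ F.toGlobe l := by
  show pre (ι i) ≫ pre (endo i s) ≫ F.hom = pre (globeFace l i s) ≫ pre (ι l) ≫ F.hom
  rw [pre_pre, pre_pre, ι_endo hi s]

lemma toGlobe_push_cell {n : ℕ} (a : Table K) (ha : ∀ l s, n < l → a.x l s = 0)
    (Φ : nu (cyl K) ⟶ X) : (push a Φ).toGlobe n = pre (globeHom n a ha) ≫ Φ := by
  show pre (ι n) ≫ pre (lift a) ≫ Φ = _
  rw [pre_pre, ι_lift a ha]

lemma face_face (F : CylCell X) {i k : ℕ} (h : i < k) (s e : Bool) :
    (F.face k e).face i s = F.face i s :=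
  CylCell.ext (show pre (endo i s) ≫ pre (endo k e) ≫ F.hom = pre (endo i s) ≫ F.hom by
    rw [pre_pre, endo_endo, if_pos h])

/-- Two functors out of `ν (K ⊗ I)` are equal if all atoms of `K` name the same cells in them. -/
theorem push_ext (hK : K.IsSteiner) {Φ Ψ : nu (cyl K) ⟶ X}
    (h : ∀ (k : ℕ) (b : K.B k) (c : Table K), K.IsAtom b c → push c Φ = push c Ψ) : Φ = Ψ :=
  cylExt_unique freeUnique hK fun l b c hc => by
    show pre (globeHom l c hc.above) ≫ Φ = pre (globeHom l c hc.above) ≫ Ψ
    rw [← toGlobe_push_cell c hc.above Φ, ← toGlobe_push_cell c hc.above Ψ, h l b c hc]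

end CylCell

end

end Vale.Agent.P213.ADC
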