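import Vale.Agent.P213.Cyl.Faces
import Vale.Agent.P213.Cyl.Grid

/-!
# Cells of the cylinder named in one functor

Composable cells of the cylinder are named by composable cells of one paste of globes, and the cell
named by a composite does not depend on the naming.
-/

open CategoryTheory

namespace Vale.Agent.P213.ADC

noncomputable section

open CylCell

variable {X : OCat}

lemma Table.above_of_face_eq {K : ADC} {c : Table K} {k : ℕ} (h : c.face k false = c) :
    ∀ l s, k < l → c.x l s = 0 := fun l s hl => by
  rw [← h, Table.face_x, if_neg (by omega), if_neg (by omega)]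

lemma faceLaw_table (K : ADC) : FaceLaw (Table.face : Table K → ℕ → Bool → Table K) :=
  fun a i j e e' => a.face_face_ite i j e e'

lemma faceLaw_cylCell (X : OCat) : FaceLaw (CylCell.face : CylCell X → ℕ → Bool → CylCell X) :=
  fun a i j e e' => a.face_face_ite i j e e'

namespace Paste

variable {n i j m p : ℕ} (P : Paste n i j m p)

theorem isSteiner : P.S.adc.IsSteiner := GShape.isSteiner P.finite P.ranked

/-- Cells with matching faces come from one functor on the paste. -/
theorem exists_glue (hE : FreeExtendGoal) (A : ℕ → ℕ → CylCell X)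
    (hn : ∀ c r, c < m → r < p → (A c r).DimAt n)
    (hI : ∀ c r, c + 1 < m → r < p → (A c r).face i true = (A (c + 1) r).face i false)
    (hJ : ∀ c r, c < m → r + 1 < p → (A c r).face j true = (A c (r + 1)).face j false) :
    ∃ Φ : nu (cyl P.S.adc) ⟶ X,
      ∀ c r, c < m → r < p → push (P.S.cell (P.top c r)) Φ = A c r := by
  obtain ⟨T, hdim, hface, htop⟩ := P.family CylCell.face (faceLaw_cylCell X) A
    (fun c r e hc hr => (hn c r hc hr).face_eq le_rfl e) hI hJ
  obtain ⟨Φ, hΦ⟩ := GShape.exists_glue hE P.finite P.ranked T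
    (fun k x => dimAt_of_face_eq (hdim k x false)) hface
  exact ⟨Φ, fun c r hc hr => (hΦ n _).trans (htop c r hc hr)⟩

/-- Cells of `ν K` with matching faces classify a morphism out of the paste. -/
theorem exists_desc {K : ADC} (A : ℕ → ℕ → Table K)
    (hn : ∀ c r, c < m → r < p → ∀ l s, n < l → (A c r).x l s = 0)
    (hI : ∀ c r, c + 1 < m → r < p → (A c r).face i true = (A (c + 1) r).face i false)
    (hJ : ∀ c r, c < m → r + 1 < p → (A c r).face j true = (A c (r + 1)).face j false) :
    ∃ g : P.S.adc ⟶ K, ∀ c r, c < m → r < p → Table.map g (P.S.cell (P.top c r)) = A c r := by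
  obtain ⟨T, hdim, hface, htop⟩ := P.family Table.face (faceLaw_table K) A
    (fun c r e hc hr => Table.face_eq_self (hn c r hc hr) e) hI hJ
  obtain ⟨g, hg⟩ := GShape.exists_desc (S := P.S) (T := T)
    ⟨fun k x l s hl => Table.above_of_face_eq (hdim k x false) l s hl, hface⟩
  exact ⟨g, fun c r hc hr => (hg n _).trans (htop c r hc hr)⟩

/-- A functor on a paste is determined by the cells named by the copies of the globe. -/
theorem hom_ext {Φ Ψ : nu (cyl P.S.adc) ⟶ X}
    (h : ∀ c r, c < m → r < p →
      push (P.S.cell (P.top c r)) Φ = push (P.S.cell (P.top c r)) Ψ) : Φ = Ψ := by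
  refine GShape.glue_ext P.finite P.ranked fun k x => ?_
  rcases Nat.lt_or_ge n k with hk | hk
  · exact ((P.empty k hk).false x).elim
  obtain ⟨d, hd⟩ : ∃ d, n = k + d := ⟨n - k, by omega⟩
  clear hk
  induction d generalizing k with
  | zero =>
    obtain rfl : k = n := by omega
    obtain ⟨c, r, hc, hr, rfl⟩ := P.top_surj x
    exact h c r hc hr
  | succ d ih =>
    obtain ⟨y, e, rfl⟩ := P.cover k (by omega) x
    rw [← GShape.cell_face, ← push_face, ← push_face, ih (k + 1) y (by omega)]

end Paste

namespace CylCell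

/-- Two composable cells are named by composable cells in one functor. -/
theorem exists_rep (hE : FreeExtendGoal) (i : ℕ) (a b : CylCell X)
    (h : a.face i false = b.face i true) :
    ∃ (K : ADC) (_ : K.IsSteiner) (u v : Table K) (_ : u.face i false = v.face i true)
      (Φ : nu (cyl K) ⟶ X), push u Φ = a ∧ push v Φ = b := by
  obtain ⟨Na, ha⟩ := a.exists_dimAt
  obtain ⟨Nb, hb⟩ := b.exists_dimAt
  obtain ⟨P⟩ := exists_paste (n := Na + Nb + i + 1) (i := i) (j := Na + Nb + i + 2) (m := 2)
    (p := 1) (by omega) (by omega) (Or.inr rfl) (by omega) (by omega)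
  obtain ⟨Φ, hΦ⟩ := P.exists_glue hE (fun c _ => if c = 0 then b else a)
    (fun c r _ _ => by
      show (if c = 0 then b else a).DimAt _
      split_ifs
      exacts [hb.mono (by omega), ha.mono (by omega)])
    (fun c r hc _ => by
      obtain rfl : c = 0 := by omega
      exact h.symm)
    (fun c r _ hr => absurd hr (by omega))
  exact ⟨P.S.adc, P.isSteiner, P.S.cell (P.top 1 0), P.S.cell (P.top 0 0),
    (P.glue_fst 0 0 (by omega) (by omega)).symm, Φ,
    (hΦ 1 0 (by omega) (by omega)).trans rfl, (hΦ 0 0 (by omega) (by omega)).trans rfl⟩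

/-- The cell named by a composite depends only on the cells named by the factors. -/
theorem push_comp_congr {K K' : ADC} {i : ℕ} {u v : Table K}
    (huv : u.face i false = v.face i true) {u' v' : Table K'}
    (huv' : u'.face i false = v'.face i true) {Φ : nu (cyl K) ⟶ X} {Φ' : nu (cyl K') ⟶ X}
    (hu : push u Φ = push u' Φ') (hv : push v Φ = push v' Φ') :
    push (Table.comp i u v huv) Φ = push (Table.comp i u' v' huv') Φ' := by
  obtain ⟨Nu, nu_⟩ := u.exists_le
  obtain ⟨Nv, nv_⟩ := v.exists_le
  obtain ⟨Nu', nu'_⟩ := u'.exists_le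
  obtain ⟨Nv', nv'_⟩ := v'.exists_le
  obtain ⟨P⟩ := exists_paste (n := Nu + Nv + Nu' + Nv' + i + 1) (i := i)
    (j := Nu + Nv + Nu' + Nv' + i + 2) (m := 2) (p := 1)
    (by omega) (by omega) (Or.inr rfl) (by omega) (by omega)
  have desc : ∀ {L : ADC} (x y : Table L), x.face i false = y.face i true →
      (∀ l s, Nu + Nv + Nu' + Nv' + i + 1 < l → x.x l s = 0) →
      (∀ l s, Nu + Nv + Nu' + Nv' + i + 1 < l → y.x l s = 0) →
      ∃ g : P.S.adc ⟶ L, Table.map g (P.S.cell (P.top 1 0)) = x ∧
        Table.map g (P.S.cell (P.top 0 0)) = y := by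
    intro L x y hxy hx hy
    obtain ⟨g, hg⟩ := P.exists_desc (fun c _ => if c = 0 then y else x)
      (fun c r _ _ => by
        show ∀ l s, _ < l → (if c = 0 then y else x).x l s = 0
        split_ifs
        exacts [hy, hx])
      (fun c r hc _ => by
        obtain rfl : c = 0 := by omega
        exact hxy.symm)
      (fun c r _ hr => absurd hr (by omega))
    exact ⟨g, (hg 1 0 (by omega) (by omega)).trans rfl, (hg 0 0 (by omega) (by omega)).trans rfl⟩
  obtain ⟨g, gu, gv⟩ := desc u v huv (fun l s hl => nu_ l s (by omega))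
    (fun l s hl => nv_ l s (by omega))
  obtain ⟨g', gu', gv'⟩ := desc u' v' huv' (fun l s hl => nu'_ l s (by omega))
    (fun l s hl => nv'_ l s (by omega))
  have hΨ : pre g ≫ Φ = pre g' ≫ Φ' := P.hom_ext fun c r hc hr => by
    obtain rfl : r = 0 := by omega
    rw [← push_map, ← push_map]
    rcases (show c = 0 ∨ c = 1 by omega) with rfl | rfl
    · rw [gv, gv', hv]
    · rw [gu, gu', hu]
  have h₀ := (P.glue_fst 0 0 (by omega) (by omega)).symm
  have comp_eq : ∀ {L : ADC} (f : P.S.adc ⟶ L) (x y : Table L) (hxy : x.face i false = y.face i true),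
      Table.map f (P.S.cell (P.top 1 0)) = x → Table.map f (P.S.cell (P.top 0 0)) = y →
      Table.map f (Table.comp i _ _ h₀) = Table.comp i x y hxy := by
    intro L f x y hxy hx hy
    subst hx hy
    exact Table.map_comp f i _ _ h₀ hxy
  rw [← comp_eq g u v huv gu gv, ← comp_eq g' u' v' huv' gu' gv', push_map, push_map, hΨ]

/-- Composites exist. -/
theorem exists_comp (hE : FreeExtendGoal) (i : ℕ) (a b : CylCell X)
    (h : a.face i false = b.face i true) :
    ∃ c : CylCell X, ∀ (K : ADC), K.IsSteiner → ∀ (u v : Table K)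
      (huv : u.face i false = v.face i true) (Φ : nu (cyl K) ⟶ X),
      push u Φ = a → push v Φ = b → c = push (Table.comp i u v huv) Φ := by
  obtain ⟨K, _, u, v, huv, Φ, rfl, rfl⟩ := exists_rep hE i a b h
  exact ⟨_, fun K' _ u' v' huv' Φ' hu hv => push_comp_congr huv huv' hu.symm hv.symm⟩

/-- Three composable cells are named in one functor. -/
theorem exists_rep₃ (hE : FreeExtendGoal) (i : ℕ) (a b c : CylCell X)
    (h : a.face i false = b.face i true) (h' : b.face i false = c.face i true) :
    ∃ (K : ADC) (_ : K.IsSteiner) (u v w : Table K) (_ : u.face i false = v.face i true)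
      (_ : v.face i false = w.face i true)
      (Φ : nu (cyl K) ⟶ X), push u Φ = a ∧ push v Φ = b ∧ push w Φ = c := by
  obtain ⟨Na, ha⟩ := a.exists_dimAt
  obtain ⟨Nb, hb⟩ := b.exists_dimAt
  obtain ⟨Nc, hc⟩ := c.exists_dimAt
  obtain ⟨P⟩ := exists_paste (n := Na + Nb + Nc + i + 1) (i := i) (j := Na + Nb + Nc + i + 2)
    (m := 3) (p := 1) (by omega) (by omega) (Or.inr rfl) (by omega) (by omega)
  obtain ⟨Φ, hΦ⟩ := P.exists_glue hE (fun t _ => if t = 0 then c else if t = 1 then b else a)
    (fun t r _ _ => by
      show (if t = 0 then c else if t = 1 then b else a).DimAt _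
      split_ifs
      exacts [hc.mono (by omega), hb.mono (by omega), ha.mono (by omega)])
    (fun t r ht _ => by
      rcases (show t = 0 ∨ t = 1 by omega) with rfl | rfl
      · exact h'.symm
      · exact h.symm)
    (fun t r _ hr => absurd hr (by omega))
  exact ⟨P.S.adc, P.isSteiner, P.S.cell (P.top 2 0), P.S.cell (P.top 1 0), P.S.cell (P.top 0 0),
    (P.glue_fst 1 0 (by omega) (by omega)).symm, (P.glue_fst 0 0 (by omega) (by omega)).symm, Φ,
    (hΦ 2 0 (by omega) (by omega)).trans rfl, (hΦ 1 0 (by omega) (by omega)).trans rfl,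
    (hΦ 0 0 (by omega) (by omega)).trans rfl⟩

/-- The four cells of an interchange are named in one functor. -/
theorem exists_rep₄ (hE : FreeExtendGoal) {i j : ℕ} (hij : i < j) (a b c d : CylCell X)
    (hab : a.face j false = b.face j true) (hcd : c.face j false = d.face j true)
    (hac : a.face i false = c.face i true) (hbd : b.face i false = d.face i true) :
    ∃ (K : ADC) (_ : K.IsSteiner) (u v w z : Table K) (_ : u.face j false = v.face j true)
      (_ : w.face j false = z.face j true) (_ : u.face i false = w.face i true)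
      (_ : v.face i false = z.face i true)
      (Φ : nu (cyl K) ⟶ X), push u Φ = a ∧ push v Φ = b ∧ push w Φ = c ∧ push z Φ = d := by
  obtain ⟨Na, ha⟩ := a.exists_dimAt
  obtain ⟨Nb, hb⟩ := b.exists_dimAt
  obtain ⟨Nc, hc⟩ := c.exists_dimAt
  obtain ⟨Nd, hd⟩ := d.exists_dimAt
  obtain ⟨P⟩ := exists_paste (n := Na + Nb + Nc + Nd + j + 1) (i := i) (j := j)
    (m := 2) (p := 2) hij (by omega) (Or.inl (by omega)) (by omega) (by omega)
  obtain ⟨Φ, hΦ⟩ := P.exists_glue hE
    (fun s t => if s = 0 then (if t = 0 then d else c) else if t = 0 then b else a)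
    (fun s t _ _ => by
      show (if s = 0 then (if t = 0 then d else c) else if t = 0 then b else a).DimAt _
      split_ifs
      exacts [hd.mono (by omega), hc.mono (by omega), hb.mono (by omega), ha.mono (by omega)])
    (fun s t hs ht => by
      obtain rfl : s = 0 := by omega
      rcases (show t = 0 ∨ t = 1 by omega) with rfl | rfl
      · exact hbd.symm
      · exact hac.symm)
    (fun s t hs ht => by
      obtain rfl : t = 0 := by omega
      rcases (show s = 0 ∨ s = 1 by omega) with rfl | rfl
      · exact hcd.symm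
      · exact hab.symm)
  exact ⟨P.S.adc, P.isSteiner, P.S.cell (P.top 1 1), P.S.cell (P.top 1 0), P.S.cell (P.top 0 1),
    P.S.cell (P.top 0 0), (P.glue_snd 1 0 (by omega) (by omega)).symm,
    (P.glue_snd 0 0 (by omega) (by omega)).symm, (P.glue_fst 0 1 (by omega) (by omega)).symm,
    (P.glue_fst 0 0 (by omega) (by omega)).symm, Φ,
    (hΦ 1 1 (by omega) (by omega)).trans rfl, (hΦ 1 0 (by omega) (by omega)).trans rfl,
    (hΦ 0 1 (by omega) (by omega)).trans rfl, (hΦ 0 0 (by omega) (by omega)).trans rfl⟩

end CylCell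

end

end Vale.Agent.P213.ADC
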