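import Vale.Agent.P213.Cplx.Globe

/-!
# Globular shapes

A globular shape has cells in each degree with a source (`side false`) and a target (`side true`).
Its complex has boundary `target - source`; a family of cells of `ν K` with the right faces is a
morphism out of it.  If the shape is finite and has a rank increasing from source to target, its
complex is Steiner.
-/

open CategoryTheory

namespace Vale.Agent.P213.ADC

noncomputable section

/-- A globular set of cells. -/
structure GShape where
  B : ℕ → Type
  side : ∀ (k : ℕ), Bool → B (k + 1) → B k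
  globular : ∀ k e e' e'' (x : B (k + 2)),
    side k e (side (k + 1) e' x) = side k e (side (k + 1) e'' x)

namespace GShape

/-- The chains of a globular shape. -/
@[reducible] def adc (S : GShape) : ADC where
  B := S.B
  d k := onGen fun x => Finsupp.single (S.side k true x) 1 - Finsupp.single (S.side k false x) 1
  ε := onGen fun _ => 1
  d_d k x := by
    have e : (onGen fun x => Finsupp.single (S.side k true x) (1 : ℤ) -
        Finsupp.single (S.side k false x) 1).comp
        (onGen fun x => Finsupp.single (S.side (k + 1) true x) (1 : ℤ) -
          Finsupp.single (S.side (k + 1) false x) 1) = 0 :=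
      lhom_ext_gen fun b => by
        simp only [LinearMap.comp_apply, onGen_single, map_sub, LinearMap.zero_apply,
          S.globular k true true false b, S.globular k false true false b]
        abel
    exact LinearMap.congr_fun e x
  ε_d x := by
    have e : (onGen fun _ : S.B 0 => (1 : ℤ)).comp
        (onGen fun x => Finsupp.single (S.side 0 true x) (1 : ℤ) -
          Finsupp.single (S.side 0 false x) 1) = 0 :=
      lhom_ext_gen fun b => by simp
    exact LinearMap.congr_fun e x

/-- A rank increasing from source to target. -/
def Ranked (S : GShape) (r : ∀ k, S.B k → ℤ) : Prop :=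
  ∀ k (x : S.B (k + 1)),
    r k (S.side k false x) < r (k + 1) x ∧ r (k + 1) x < r k (S.side k true x)

/-- The chain of degree `l` on side `s` of a cell. -/
def levels (S : GShape) : ∀ (k : ℕ), S.B k → (l : ℕ) → Bool → (S.B l →₀ ℤ)
  | 0, x, l, _ => if h : l = 0 then Finsupp.single (h ▸ x) 1 else 0
  | k + 1, x, l, s =>
    if h : l = k + 1 then Finsupp.single (h ▸ x) 1
    else S.levels k (S.side k s x) l s

variable {S : GShape}

lemma levels_self : ∀ {k : ℕ} (x : S.B k) (s : Bool), S.levels k x k s = Finsupp.single x 1
  | 0, _, _ => by simp [levels]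
  | _ + 1, _, _ => by simp [levels]

lemma levels_above : ∀ {k : ℕ} (x : S.B k) (l : ℕ) (s : Bool), k < l → S.levels k x l s = 0
  | 0, _, l, _, h => by simp [levels, show l ≠ 0 by omega]
  | k + 1, x, l, s, h => by
    rw [levels, dif_neg (by omega)]
    exact levels_above _ l s (by omega)

lemma levels_nonneg : ∀ {k : ℕ} (x : S.B k) (l : ℕ) (s : Bool), 0 ≤ S.levels k x l s
  | 0, _, _, _ => by rw [levels]; split_ifs <;> simp
  | k + 1, x, l, s => by
    rw [levels]
    split_ifs
    · simp
    · exact levels_nonneg _ l s

lemma levels_succ_of_le {k : ℕ} (x : S.B (k + 1)) {l : ℕ} (hl : l ≤ k) (s : Bool) :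
    S.levels (k + 1) x l s = S.levels k (S.side k s x) l s := by
  rw [levels, dif_neg (by omega)]

lemma levels_side {k : ℕ} (x : S.B (k + 1)) {l : ℕ} (hl : l < k) (e e' s : Bool) :
    S.levels k (S.side k e x) l s = S.levels k (S.side k e' x) l s := by
  obtain ⟨k, rfl⟩ : ∃ j, k = j + 1 := ⟨k - 1, by omega⟩
  rw [levels_succ_of_le _ (by omega), levels_succ_of_le _ (by omega), S.globular k s e e' x]

lemma levels_d : ∀ {k : ℕ} (x : S.B k) (l : ℕ) (s : Bool),
    S.adc.d l (S.levels k x (l + 1) s) = S.levels k x l true - S.levels k x l false
  | 0, x, l, s => by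
    rw [levels_above x (l + 1) s (by omega), map_zero]
    simp [levels]
  | k + 1, x, l, s => by
    rcases lt_trichotomy l k with h | rfl | h
    · rw [levels_succ_of_le x (by omega), levels_succ_of_le x h.le, levels_succ_of_le x h.le,
        levels_d (S.side k s x) l s, levels_side x h s true true, levels_side x h s false false]
    · rw [levels_self, levels_succ_of_le x le_rfl, levels_succ_of_le x le_rfl, levels_self,
        levels_self]
      exact onGen_single _ _
    · rw [levels_above x (l + 1) s (by omega), map_zero]
      rcases Nat.lt_or_eq_of_le (Nat.succ_le_of_lt h) with h' | rfl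
      · rw [levels_above x l true h', levels_above x l false h', sub_zero]
      · rw [levels_self, levels_self, sub_self]

lemma levels_aug : ∀ {k : ℕ} (x : S.B k) (s : Bool), S.adc.ε (S.levels k x 0 s) = 1
  | 0, x, s => by rw [levels_self]; exact onGen_single _ _
  | k + 1, x, s => by rw [levels_succ_of_le x (Nat.zero_le k)]; exact levels_aug _ s

/-- The cell of a member of the shape. -/
def cell (S : GShape) {k : ℕ} (x : S.B k) : Table S.adc where
  x := S.levels k x
  nonneg := levels_nonneg x
  aug := levels_aug x
  bdry := levels_d x
  exists_zero := ⟨k + 1, fun l s h => levels_above x l s (by omega)⟩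

lemma cell_above {k : ℕ} (x : S.B k) (l : ℕ) (s : Bool) (h : k < l) : (S.cell x).x l s = 0 :=
  levels_above x l s h

lemma cell_top {k : ℕ} (x : S.B k) (s : Bool) : (S.cell x).x k s = Finsupp.single x 1 :=
  levels_self x s

lemma cell_face {k : ℕ} (x : S.B (k + 1)) (e : Bool) :
    (S.cell x).face k e = S.cell (S.side k e x) := by
  refine Table.ext (funext fun l => funext fun s => ?_)
  rw [Table.face_x]
  split_ifs with h₁ h₂
  · show S.levels (k + 1) x l s = S.levels k _ l s
    rw [levels_succ_of_le x h₁.le, levels_side x h₁ s e s]
  · subst h₂
    show S.levels (l + 1) x l e = S.levels l _ l s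
    rw [levels_succ_of_le x le_rfl, levels_self, levels_self]
  · exact (levels_above _ l s (by omega)).symm

lemma cell_isAtom {r : ∀ k, S.B k → ℤ} (hr : S.Ranked r) {k : ℕ} (x : S.B k) :
    S.adc.IsAtom x (S.cell x) where
  top s := cell_top x s
  above l s h := cell_above x l s h
  min := by
    induction k with
    | zero => intro l hl; omega
    | succ k ih =>
      intro l hl
      show S.levels (k + 1) x l true ⊓ S.levels (k + 1) x l false = 0
      rw [levels_succ_of_le x (by omega), levels_succ_of_le x (by omega)]
      rcases Nat.lt_or_eq_of_le (Nat.le_of_lt_succ hl) with h | rfl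
      · rw [levels_side x h false true false]
        exact ih (S.side k true x) l h
      · rw [levels_self, levels_self]
        have hne : S.side l true x ≠ S.side l false x := fun he => by
          have := hr l x
          rw [he] at this
          omega
        ext b
        rw [Finsupp.inf_apply]
        by_cases hb : S.side l true x = b
        · subst hb; simp [Finsupp.single_eq_of_ne hne]
        · rw [Finsupp.single_eq_of_ne (Ne.symm hb)]
          have := ((Finsupp.single_nonneg.2 zero_le_one : (0 : S.B l →₀ ℤ) ≤ Finsupp.single (S.side l false x) 1)) b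
          simpa using this

theorem isSteiner (hfin : Finite (Σ k, S.B k)) {r : ∀ k, S.B k → ℤ} (hr : S.Ranked r) :
    S.adc.IsSteiner where
  finite := hfin
  unital _ b := ⟨S.cell b, cell_isAtom hr b⟩
  loopFree := by
    refine ⟨fun p => r p.1 p.2, fun k a b => ?_⟩
    have h := hr k a
    have hd : S.adc.d k (S.adc.gen a) =
        Finsupp.single (S.side k true a) 1 - Finsupp.single (S.side k false a) 1 :=
      onGen_single _ _
    simp only [InBdry, Bool.false_eq_true, if_false, if_true, hd, Finsupp.sub_apply]
    by_cases h₁ : S.side k true a = b
    · by_cases h₂ : S.side k false a = b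
      · subst h₁; rw [h₂] at h; omega
      · subst h₁; simp [Finsupp.single_eq_of_ne (Ne.symm h₂), h.2]
    · by_cases h₂ : S.side k false a = b
      · subst h₂; simp [Finsupp.single_eq_of_ne (Ne.symm h₁), h.1]
      · simp [Finsupp.single_eq_of_ne (Ne.symm h₁), Finsupp.single_eq_of_ne (Ne.symm h₂)]

/-- A family of cells of `ν K` with the faces prescribed by the shape. -/
def IsFamily {K : ADC} (T : ∀ k, S.B k → Table K) : Prop :=
  (∀ k x l s, k < l → (T k x).x l s = 0) ∧
    ∀ k e (x : S.B (k + 1)), (T (k + 1) x).face k e = T k (S.side k e x)

/-- The morphism classifying a family of cells. -/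
theorem exists_desc {K : ADC} {T : ∀ k, S.B k → Table K} (hT : S.IsFamily T) :
    ∃ g : S.adc ⟶ K, ∀ k (x : S.B k), Table.map g (S.cell x) = T k x := by
  refine ⟨Hom.ofGen (fun k x => (T k x).x k false) (fun k x => (T k x).nonneg k false)
    (fun k x => ?_) (fun b => ?_), ?_⟩
  · have h₁ : ∀ e, (T k (S.side k e x)).x k false = (T (k + 1) x).x k e := fun e => by
      rw [← hT.2 k e x, Table.face_x, if_neg (lt_irrefl k), if_pos rfl]
    simp [gen, h₁, (T (k + 1) x).bdry]
  · refine ((T 0 b).aug false).trans ?_
    exact (onGen_single (fun _ : S.B 0 => (1 : ℤ)) b).symm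
  · intro k
    induction k with
    | zero =>
      intro x
      refine Table.ext (funext fun l => funext fun s => ?_)
      show onGen (fun y : S.B l => (T l y).x l false) (S.levels 0 x l s) = _
      rcases Nat.eq_zero_or_pos l with rfl | hl
      · rw [levels_self, onGen_single]
        have h := (T 0 x).top_eq (hT.1 0 x)
        cases s <;> simp [h]
      · rw [levels_above x l s hl, map_zero, hT.1 0 x l s hl]
    | succ k ih =>
      intro x
      refine Table.ext (funext fun l => funext fun s => ?_)
      show onGen (fun y : S.B l => (T l y).x l false) (S.levels (k + 1) x l s) = _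
      rcases lt_trichotomy l (k + 1) with hl | rfl | hl
      · rw [levels_succ_of_le x (by omega)]
        have h := congrArg (fun t : Table K => t.x l s) (ih (S.side k s x))
        refine h.trans ?_
        show (T k (S.side k s x)).x l s = _
        rw [← hT.2 k s x, Table.face_x]
        rcases Nat.lt_or_eq_of_le (Nat.le_of_lt_succ hl) with h' | rfl
        · rw [if_pos h']
        · rw [if_neg (lt_irrefl l), if_pos rfl]
      · rw [levels_self, onGen_single]
        have h := (T (k + 1) x).top_eq (hT.1 (k + 1) x)
        cases s <;> simp [h]
      · rw [levels_above x l s hl, map_zero, hT.1 (k + 1) x l s hl]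

end GShape

end

end Vale.Agent.P213.ADC
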