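import Vale.Agent.P213.Cyl.PushExt
import Vale.Agent.P213.Cyl.Shape

/-!
# Gluing cells of `Γ X` along a globular shape
-/

open CategoryTheory

namespace Vale.Agent.P213.ADC

noncomputable section

lemma Table.face_face_lt {K : ADC} (a : Table K) {i k : ℕ} (h : i < k) (s e : Bool) :
    (a.face k e).face i s = a.face i s := by
  refine Table.ext (funext fun l => funext fun t => ?_)
  simp only [Table.face_x]
  split_ifs <;> first | rfl | omega

namespace GShape

variable {S : GShape} {X : OCat}

/-- Iterated faces of the members of a shape are members. -/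
lemma exists_side {F : ∀ k, S.B k → CylCell X}
    (hface : ∀ k e (x : S.B (k + 1)), (F (k + 1) x).face k e = F k (S.side k e x)) :
    ∀ {k : ℕ} (x : S.B k) {i : ℕ}, i < k → ∀ s, ∃ z : S.B i,
      (S.cell x).face i s = S.cell z ∧ (F k x).face i s = F i z
  | 0, _, _, h, _ => absurd h (Nat.not_lt_zero _)
  | k + 1, x, i, h, s => by
    rcases Nat.lt_or_eq_of_le (Nat.le_of_lt_succ h) with h' | rfl
    · obtain ⟨z, hz, hz'⟩ := exists_side hface (S.side k true x) h' s
      refine ⟨z, ?_, ?_⟩
      · rw [← cell_face, Table.face_face_lt _ h'] at hz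
        exact hz
      · rw [← hface, CylCell.face_face _ h'] at hz'
        exact hz'
    · exact ⟨S.side i s x, cell_face x s, hface i s x⟩

/-- Cells of `Γ X` with the faces prescribed by a finite ranked shape come from a functor on
`ν (S ⊗ I)`. -/
theorem exists_glue (hE : FreeExtendGoal) (hfin : Finite (Σ k, S.B k)) {r : ∀ k, S.B k → ℤ}
    (hr : S.Ranked r) (F : ∀ k, S.B k → CylCell X) (hdim : ∀ k x, (F k x).DimAt k)
    (hface : ∀ k e (x : S.B (k + 1)), (F (k + 1) x).face k e = F k (S.side k e x)) :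
    ∃ Φ : nu (cyl S.adc) ⟶ X, ∀ k (x : S.B k), CylCell.push (S.cell x) Φ = F k x := by
  have hS : S.adc.IsSteiner := isSteiner hfin hr
  let A := Σ k, S.B k
  let φ : ∀ a : A, cyl (globe a.1) ⟶ cyl S.adc := fun a =>
    cylMap (globeHom a.1 (S.cell a.2) (cell_above a.2))
  let H : ∀ a : A, nu (cyl (globe a.1)) ⟶ X := fun a => (F a.1 a.2).toGlobe a.1
  let v : ∀ l, CylB S.B l → X.Cell := fun l y => match l, y with
    | l, .ends e b => (H ⟨l, b⟩).map (Table.map (cylEnd e (globe l)) (globeCell l))
    | _, .mid (k := l) b => (H ⟨l, b⟩).map (globeCell l).cylMid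
  have himgE : ∀ (a : A) e, (cyl S.adc).IsAtom (CylB.ends e a.2)
      (Table.map (φ a) (Table.map (cylEnd e (globe a.1)) (globeCell a.1))) := fun a e => by
    rw [Table.map_cylMap_cylEnd, globeHom_cell]
    exact (cell_isAtom hr a.2).cylEnd e
  have himgM : ∀ a : A, (cyl S.adc).IsAtom (k := a.1 + 1) (CylB.mid a.2)
      (Table.map (φ a) (globeCell a.1).cylMid) := fun a => by
    rw [Table.map_cylMap_cylMid, globeHom_cell]
    exact (cell_isAtom hr a.2).cylMid
  have hv : ∀ l y, X.src l (v l y) = v l y := fun l y => by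
    cases y with
    | ends e b =>
      refine ((H ⟨l, b⟩).map_src l _).symm.trans (congrArg _ ?_)
      exact Le.face_eq (((isAtom_globe_top l).cylEnd e).above) le_rfl false
    | mid b =>
      rename_i l
      refine ((H ⟨l, b⟩).map_src (l + 1) _).symm.trans (congrArg _ ?_)
      exact Le.face_eq ((isAtom_globe_top l).cylMid.above) le_rfl false
  have cover : ∀ (l : ℕ) (y : CylB S.B l), ∃ (a : A) (b : CylB (GlobeB a.1) l)
      (c : Table (cyl (globe a.1))), (cyl (globe a.1)).IsAtom b c ∧
      (cyl S.adc).IsAtom y (Table.map (φ a) c) ∧ (H a).map c = v l y := fun l y => by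
    cases y with
    | ends e b => exact ⟨⟨l, b⟩, _, _, (isAtom_globe_top l).cylEnd e, himgE ⟨l, b⟩ e, rfl⟩
    | mid b =>
      rename_i l
      exact ⟨⟨l, b⟩, _, _, (isAtom_globe_top l).cylMid, himgM ⟨l, b⟩, rfl⟩
  have face_eq : ∀ (a : A) (i : ℕ), i < a.1 → ∀ s : Bool, ∃ z : S.B i,
      globeFace a.1 i s ≫ globeHom a.1 (S.cell a.2) (cell_above a.2) =
        globeHom i (S.cell z) (cell_above z) ∧
      pre (globeFace a.1 i s) ≫ H a = H ⟨i, z⟩ := by
    intro a i hi s
    obtain ⟨z, hz, hz'⟩ := exists_side hface a.2 hi s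
    refine ⟨z, globe_hom_ext ?_, ?_⟩
    · rw [globeFace_comp, globeHom_cell, globeHom_cell, hz]
    · show pre (globeFace a.1 i s) ≫ (F a.1 a.2).toGlobe a.1 = (F i z).toGlobe i
      rw [← CylCell.toGlobe_face _ hi, hz']
  have compat : ∀ (k : ℕ) (G : nu ((cyl S.adc).trunc k) ⟶ X), HasValues k G v →
      ∀ a, AgreesUpTo k G (φ a) (H a) := by
    intro k G hG a l y c hl hc h
    cases y with
    | ends e q =>
      obtain ⟨s, hs⟩ := q
      rcases hs with hi | ⟨rfl, rfl⟩
      · obtain rfl := hc.unique ((isAtom_globe (⟨s, Or.inl hi⟩ : GlobeB a.1 l)).cylEnd e)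
        obtain ⟨z, hz, hz'⟩ := face_eq a l hi s
        have e₁ : Table.map (cylEnd e _) ((globeCell a.1).face l s) =
            Table.map (cylMap (globeFace a.1 l s)) (Table.map (cylEnd e _) (globeCell l)) := by
          rw [Table.map_cylMap_cylEnd, globeFace_cell]
        have e₂ : Table.map (φ a) (Table.map (cylEnd e _) ((globeCell a.1).face l s)) =
            Table.map (φ ⟨l, z⟩) (Table.map (cylEnd e _) (globeCell l)) :=
          (congrArg _ e₁).trans ((map_cylMap_comp _ _ _).symm.trans
            (congrArg (fun f => Table.map (cylMap f) _) hz))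
        refine (hG l _ _ hl (e₂ ▸ himgE ⟨l, z⟩ e) h).trans ?_
        exact ((congrArg (H a).map e₁).trans (congrArg
          (fun f : nu (cyl (globe l)) ⟶ X =>
            f.map (Table.map (cylEnd e _) (globeCell l))) hz')).symm
      · obtain rfl := hc.unique ((isAtom_globe_top a.1).cylEnd e)
        exact hG _ _ _ hl (himgE a e) h
    | mid q =>
      rename_i l
      obtain ⟨s, hs⟩ := q
      rcases hs with hi | ⟨rfl, rfl⟩
      · obtain rfl := hc.unique ((isAtom_globe (⟨s, Or.inl hi⟩ : GlobeB a.1 l)).cylMid)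
        obtain ⟨z, hz, hz'⟩ := face_eq a l hi s
        have e₁ : ((globeCell a.1).face l s).cylMid =
            Table.map (cylMap (globeFace a.1 l s)) (globeCell l).cylMid := by
          rw [Table.map_cylMap_cylMid, globeFace_cell]
        have e₂ : Table.map (φ a) ((globeCell a.1).face l s).cylMid =
            Table.map (φ ⟨l, z⟩) (globeCell l).cylMid :=
          (congrArg _ e₁).trans ((map_cylMap_comp _ _ _).symm.trans
            (congrArg (fun f => Table.map (cylMap f) _) hz))
        refine (hG (l + 1) _ _ hl (e₂ ▸ himgM ⟨l, z⟩) h).trans ?_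
        exact ((congrArg (H a).map e₁).trans (congrArg
          (fun f : nu (cyl (globe l)) ⟶ X => f.map (globeCell l).cylMid) hz')).symm
      · obtain rfl := hc.unique ((isAtom_globe_top a.1).cylMid)
        exact hG _ _ _ hl (himgM a) h
  obtain ⟨G, hG⟩ := exists_of_charts (C := cyl S.adc) (D := fun a : A => cyl (globe a.1))
    freeUnique hE hS.cyl (fun a => (globe_isSteiner a.1).cyl) φ H v hv cover
    (fun _ _ _ _ h h' => h.unique h') compat
  refine ⟨G, fun k x => ?_⟩
  have h1 : (CylCell.push (S.cell x) G).toGlobe k = (F k x).toGlobe k :=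
    (CylCell.toGlobe_push_cell _ (cell_above x) G).trans (hG ⟨k, x⟩)
  rw [← CylCell.push_toGlobe (hdim k x),
    ← CylCell.push_toGlobe (CylCell.push_dimAt (cell_above x) G), h1]

/-- Functors on `ν (S ⊗ I)` naming the same cells at all members of the shape are equal. -/
theorem glue_ext (hfin : Finite (Σ k, S.B k)) {r : ∀ k, S.B k → ℤ} (hr : S.Ranked r)
    {Φ Ψ : nu (cyl S.adc) ⟶ X}
    (h : ∀ k (x : S.B k), CylCell.push (S.cell x) Φ = CylCell.push (S.cell x) Ψ) : Φ = Ψ :=
  CylCell.push_ext (isSteiner hfin hr) fun k b c hc => by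
    obtain rfl := hc.unique (cell_isAtom hr b)
    exact h k b

end GShape

end

end Vale.Agent.P213.ADC
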